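import Vale.Agent.P088.R2.H867.EP.Inst
import Vale.Agent.P088.R2.H870.Z2.On4

/-!
# P088, stage 3: the cut-off conditions of zone II

`Zc`: a smooth letter for the cost of a cut-off `χ` in zone II; `cut_of`: helper870's structure
`Cut` for every `χ`; `Zc_sm`: it is smooth when `χ` vanishes near the diagonal; `Zc_le`: its size
from helper932's bounds of the derivatives.
-/

open Set Filter
open scoped ContDiff Topology Matrix

noncomputable section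

namespace Vale.Agent.P088.R2.H867.Z

open Vale.Agent.P088.LR Vale.Agent.P088.HY Vale.Agent.P088.R2.H961.GW Vale.Agent.P088.R2.H464.Cu
open Vale.Agent.P088.R2.H932.EP (JB ep wt)
open Vale.Agent.P088.R2.H870.Z2 (Cut CB2 KO2)

variable {n : ℕ}

/-- `∑ ((dx_i χ)² + (dy_i χ)²)`. -/
def sq1 (χ : VV n → ℝ) (z : VV n) : ℝ := ∑ i, (dx i χ z ^ 2 + dy i χ z ^ 2)

/-- `∑ (dx_i χ + dy_i χ)²`. -/
def sqp (χ : VV n → ℝ) (z : VV n) : ℝ := ∑ i, (dx i χ z + dy i χ z) ^ 2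

theorem sq1_nn (χ : VV n → ℝ) (z : VV n) : 0 ≤ sq1 χ z :=
  Finset.sum_nonneg fun _ _ => by positivity

theorem sqp_nn (χ : VV n → ℝ) (z : VV n) : 0 ≤ sqp χ z :=
  Finset.sum_nonneg fun _ _ => by positivity

theorem dx_le (χ : VV n → ℝ) (z : VV n) (i : Fin n) : |dx i χ z| ≤ √(sq1 χ z) := by
  refine Real.abs_le_sqrt ?_
  have h := Finset.single_le_sum (f := fun i => dx i χ z ^ 2 + dy i χ z ^ 2)
    (fun j _ => by positivity) (Finset.mem_univ i)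
  have := sq_nonneg (dy i χ z)
  unfold sq1
  linarith

theorem dy_le (χ : VV n → ℝ) (z : VV n) (i : Fin n) : |dy i χ z| ≤ √(sq1 χ z) := by
  refine Real.abs_le_sqrt ?_
  have h := Finset.single_le_sum (f := fun i => dx i χ z ^ 2 + dy i χ z ^ 2)
    (fun j _ => by positivity) (Finset.mem_univ i)
  have := sq_nonneg (dx i χ z)
  unfold sq1
  linarith

theorem dp_le (χ : VV n → ℝ) (z : VV n) (i : Fin n) : |dx i χ z + dy i χ z| ≤ √(sqp χ z) := by
  refine Real.abs_le_sqrt ?_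
  exact Finset.single_le_sum (f := fun i => (dx i χ z + dy i χ z) ^ 2)
    (fun j _ => by positivity) (Finset.mem_univ i)

/-- **The cost letter of a cut-off in zone II.** -/
def Zc (K η : ℝ) (ρ En N k χ : VV n → ℝ) (z : VV n) : ℝ :=
  K * (2 * ρ z * sq1 χ z * (1 + (N z + k z) / (En z * (2 * ρ z))) ^ 2 + sqp χ z) / (η * k z)

theorem Zc_nn {K η : ℝ} {ρ En N k χ : VV n → ℝ} {z : VV n} (hK : 0 ≤ K) (hη : 0 ≤ η)
    (hρ : 0 ≤ ρ z) (hk : 0 ≤ k z) : 0 ≤ Zc K η ρ En N k χ z := by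
  have h1 := sq1_nn χ z
  have h2 := sqp_nn χ z
  unfold Zc
  positivity

/-- **The structure `Cut` of helper870.** -/
theorem cut_of {ρ k χ : VV n → ℝ} {EE NN : VV n → ℝ} {σ τ : Sl (VV n) (Fin n)} {ν A η : ℝ}
    {z : VV n} (hσ : ∀ i, σ.D i χ z = dx i χ z) (hτ : ∀ i, τ.D i χ z = dy i χ z)
    (hη : 0 < η) (hρ : 0 < ρ z) (hk : 0 < k z) :
    Cut σ τ χ k (Zc (2 * KO2 ν A) η ρ EE NN k χ) ν A η (EE z) (NN z) √(2 * ρ z)
      √(2 * ρ z * sq1 χ z) √(sqp χ z) z := by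
  have hr : 0 < 2 * ρ z := by linarith
  have hr' : 0 < √(2 * ρ z) := Real.sqrt_pos.2 hr
  have e0 : √(2 * ρ z * sq1 χ z) / √(2 * ρ z) = √(sq1 χ z) := by
    rw [Real.sqrt_mul hr.le]
    field_simp
  have K0 : 0 ≤ KO2 ν A := by unfold KO2; positivity
  refine ⟨⟨fun i => ?_, fun i => ?_, fun i => ?_⟩, Real.sqrt_nonneg _, Real.sqrt_nonneg _, hk, ?_⟩
  · rw [e0, hσ]; exact dx_le χ z i
  · rw [e0, hτ]; exact dy_le χ z i
  · rw [hσ, hτ]; exact dp_le χ z i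
  · have e1 : Zc (2 * KO2 ν A) η ρ EE NN k χ z * (η * k z) = KO2 ν A *
        (2 * (2 * ρ z * sq1 χ z * (1 + (NN z + k z) / (EE z * (2 * ρ z))) ^ 2 + sqp χ z)) := by
      unfold Zc
      have : η * k z ≠ 0 := (mul_pos hη hk).ne'
      field_simp
    rw [e1, Real.sq_sqrt hr.le]
    refine mul_le_mul_of_nonneg_left ?_ K0
    have a1 : √(2 * ρ z * sq1 χ z) ^ 2 = 2 * ρ z * sq1 χ z :=
      Real.sq_sqrt (mul_nonneg hr.le (sq1_nn χ z))
    have a2 : √(sqp χ z) ^ 2 = sqp χ z := Real.sq_sqrt (sqp_nn χ z)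
    set x := √(2 * ρ z * sq1 χ z)
    set y := √(sqp χ z)
    set M := 1 + (NN z + k z) / (EE z * (2 * ρ z))
    rw [← a1, ← a2]
    nlinarith [sq_nonneg (x * M - y)]

/-- Quotients whose numerator vanishes near the zeros of the denominator. -/
theorem sm_div {E : Type*} [NormedAddCommGroup E] [NormedSpace ℝ E] {f g : E → ℝ}
    (hf : ContDiff ℝ ∞ f) (hg : ContDiff ℝ ∞ g) (h : ∀ z, g z = 0 → f =ᶠ[𝓝 z] fun _ => 0) :
    ContDiff ℝ ∞ fun z => f z / g z := by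
  rw [contDiff_iff_contDiffAt]
  intro z
  by_cases hz : g z = 0
  · have h1 : (fun z => f z / g z) =ᶠ[𝓝 z] fun _ => 0 := by
      filter_upwards [h z hz] with y hy
      rw [hy, zero_div]
    exact contDiffAt_const.congr_of_eventuallyEq h1
  · exact hf.contDiffAt.div hg.contDiffAt hz

theorem dx_sm {χ : VV n → ℝ} (h : ContDiff ℝ ∞ χ) (i : Fin n) : ContDiff ℝ ∞ (dx i χ) :=
  (h.fderiv_right (m := ∞) le_rfl).clm_apply contDiff_const

theorem dy_sm {χ : VV n → ℝ} (h : ContDiff ℝ ∞ χ) (i : Fin n) : ContDiff ℝ ∞ (dy i χ) :=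
  (h.fderiv_right (m := ∞) le_rfl).clm_apply contDiff_const

theorem sq1_sm {χ : VV n → ℝ} (h : ContDiff ℝ ∞ χ) : ContDiff ℝ ∞ (sq1 χ) :=
  ContDiff.sum fun i _ => ((dx_sm h i).pow 2).add ((dy_sm h i).pow 2)

theorem sqp_sm {χ : VV n → ℝ} (h : ContDiff ℝ ∞ χ) : ContDiff ℝ ∞ (sqp χ) :=
  ContDiff.sum fun i _ => ((dx_sm h i).add (dy_sm h i)).pow 2

theorem sq1_ev {χ : VV n → ℝ} {z : VV n} (h : χ =ᶠ[𝓝 z] fun _ => 0) :
    sq1 χ =ᶠ[𝓝 z] fun _ => 0 := by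
  filter_upwards [h.eventuallyEq_nhds] with y hy
  unfold sq1 dx dy
  rw [hy.fderiv_eq]
  simp

theorem sqp_ev {χ : VV n → ℝ} {z : VV n} (h : χ =ᶠ[𝓝 z] fun _ => 0) :
    sqp χ =ᶠ[𝓝 z] fun _ => 0 := by
  filter_upwards [h.eventuallyEq_nhds] with y hy
  unfold sqp dx dy
  rw [hy.fderiv_eq]
  simp

/-- **The letter is smooth** if `χ` vanishes near the diagonal. -/
theorem Zc_sm {K η : ℝ} {ρ En N k χ : VV n → ℝ} (hη : 0 < η) (hρ : ContDiff ℝ ∞ ρ)
    (hE : ContDiff ℝ ∞ En) (hE0 : ∀ z, 0 < En z) (hN : ContDiff ℝ ∞ N) (hk : ContDiff ℝ ∞ k)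
    (hk0 : ∀ z, 0 < k z) (hχ : ContDiff ℝ ∞ χ) (h : ∀ z, ρ z = 0 → χ =ᶠ[𝓝 z] fun _ => 0) :
    ContDiff ℝ ∞ (Zc K η ρ En N k χ) := by
  have e : Zc K η ρ En N k χ = fun z => (K * ((sq1 χ z * (En z * (2 * ρ z) + (N z + k z)) ^ 2) /
      (En z ^ 2 * (2 * ρ z)) + sqp χ z)) / (η * k z) := by
    funext z
    unfold Zc
    congr 2
    by_cases hz : ρ z = 0
    · have h1 := (sq1_ev (h z hz)).self_of_nhds
      have h2 := (sqp_ev (h z hz)).self_of_nhds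
      simp only [h1, h2]
      simp
    · have := (hE0 z).ne'
      field_simp
  rw [e]
  have hf : ContDiff ℝ ∞ fun z => sq1 χ z * (En z * (2 * ρ z) + (N z + k z)) ^ 2 :=
    (sq1_sm hχ).mul (((hE.mul (contDiff_const.mul hρ)).add (hN.add hk)).pow 2)
  have hg : ContDiff ℝ ∞ fun z => En z ^ 2 * (2 * ρ z) := (hE.pow 2).mul (contDiff_const.mul hρ)
  refine (contDiff_const.mul ((sm_div hf hg fun z hz => ?_).add (sqp_sm hχ))).div
    (contDiff_const.mul hk) fun z => (mul_pos hη (hk0 z)).ne'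
  have hz' : ρ z = 0 := by
    rcases mul_eq_zero.1 hz with h1 | h1
    · exact absurd h1 (pow_pos (hE0 z) 2).ne'
    · linarith
  filter_upwards [sq1_ev (h z hz')] with y hy
  rw [hy, zero_mul]

/-- The derivatives of the slots from those in the directions `p`, `q`. -/
theorem dx_ep {χ : VV n → ℝ} {z : VV n} (i : Fin n) :
    dx i χ z = 1 / 2 * fderiv ℝ χ z (ep (Sum.inl i)) + fderiv ℝ χ z (ep (Sum.inr i)) := by
  have e : ((Pi.single i 1, 0) : VV n) = (1 / 2 : ℝ) • (ep (Sum.inl i)) + ep (Sum.inr i) := by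
    refine Prod.ext ?_ ?_ <;> funext j <;>
      simp only [ep, Prod.fst_add, Prod.snd_add, Prod.smul_fst, Prod.smul_snd, Pi.add_apply,
        Pi.smul_apply, Pi.neg_apply, smul_eq_mul, Pi.single_apply, Pi.zero_apply] <;>
      split_ifs <;> norm_num
  unfold dx
  rw [e, map_add, map_smul, smul_eq_mul]

theorem dy_ep {χ : VV n → ℝ} {z : VV n} (i : Fin n) :
    dy i χ z = 1 / 2 * fderiv ℝ χ z (ep (Sum.inl i)) - fderiv ℝ χ z (ep (Sum.inr i)) := by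
  have e : ((0, Pi.single i 1) : VV n) = (1 / 2 : ℝ) • (ep (Sum.inl i)) - ep (Sum.inr i) := by
    refine Prod.ext ?_ ?_ <;> funext j <;>
      simp only [ep, Prod.fst_sub, Prod.snd_sub, Prod.smul_fst, Prod.smul_snd, Pi.sub_apply,
        Pi.smul_apply, Pi.neg_apply, smul_eq_mul, Pi.single_apply, Pi.zero_apply] <;>
      split_ifs <;> norm_num
  unfold dy
  rw [e, map_sub, map_smul, smul_eq_mul]

/-- Sizes from the `p`, `q` bounds. -/
theorem sq_le {χ : VV n → ℝ} {ρ a b : ℝ} {z : VV n} (hρ : 0 < ρ) (hρ1 : ρ ≤ 1)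
    (h : JB ep (wt ρ) χ a b z) : 2 * ρ * sq1 χ z ≤ 9 * n * a ^ 2 ∧ sqp χ z ≤ n * a ^ 2 := by
  have hs : 0 < √ρ := Real.sqrt_pos.2 hρ
  have hs2 : √ρ ^ 2 = ρ := Real.sq_sqrt hρ.le
  have hs1 : √ρ ≤ 1 := Real.sqrt_le_one.2 hρ1
  constructor
  · have h1 : ∀ i : Fin n, 2 * ρ * (dx i χ z ^ 2 + dy i χ z ^ 2) ≤ 9 * a ^ 2 := by
      intro i
      have p := h.d1 (Sum.inl i)
      have q := h.d1 (Sum.inr i)
      rw [dx_ep, dy_ep]
      set P := fderiv ℝ χ z (ep (Sum.inl i))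
      set Q := fderiv ℝ χ z (ep (Sum.inr i))
      simp only [Vale.Agent.P088.R2.H932.EP.wt, mul_one] at p q
      have q' : |√ρ * Q| ≤ a := by
        rw [abs_mul, abs_of_pos hs]
        calc √ρ * |Q| ≤ √ρ * (a * (√ρ)⁻¹) := mul_le_mul_of_nonneg_left q hs.le
          _ = a := by field_simp
      have q2 := sq_le_sq' (abs_le.1 q').1 (abs_le.1 q').2
      have p2 := sq_le_sq' (abs_le.1 p).1 (abs_le.1 p).2
      rw [mul_pow, hs2] at q2
      have e : 2 * ρ * ((1 / 2 * P + Q) ^ 2 + (1 / 2 * P - Q) ^ 2) =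
        ρ * P ^ 2 + 4 * (ρ * Q ^ 2) := by ring
      rw [e]
      have : ρ * P ^ 2 ≤ 1 * P ^ 2 := mul_le_mul_of_nonneg_right hρ1 (sq_nonneg _)
      nlinarith [sq_nonneg a]
    unfold sq1
    rw [Finset.mul_sum]
    refine (Finset.sum_le_sum fun i _ => h1 i).trans (le_of_eq ?_)
    rw [Finset.sum_const, Finset.card_univ, Fintype.card_fin, nsmul_eq_mul]
    ring
  · have h1 : ∀ i : Fin n, (dx i χ z + dy i χ z) ^ 2 ≤ a ^ 2 := by
      intro i
      have p := h.d1 (Sum.inl i)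
      rw [dx_ep, dy_ep]
      simp only [Vale.Agent.P088.R2.H932.EP.wt, mul_one] at p
      have p2 := sq_le_sq' (abs_le.1 p).1 (abs_le.1 p).2
      refine le_trans (le_of_eq ?_) p2
      ring
    unfold sqp
    refine (Finset.sum_le_sum fun i _ => h1 i).trans (le_of_eq ?_)
    rw [Finset.sum_const, Finset.card_univ, Fintype.card_fin, nsmul_eq_mul]

/-- **The size of the letter.** -/
theorem Zc_le {K η a b : ℝ} {ρ En N k χ : VV n → ℝ} {z : VV n} (hK : 0 ≤ K) (hη : 0 < η)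
    (hk : 0 < k z) (hN : 0 ≤ N z) (hE : 0 < En z) (hρ : 0 < ρ z) (hρ1 : ρ z ≤ 1)
    (h : JB ep (wt (ρ z)) χ a b z) :
    Zc K η ρ En N k χ z ≤
      10 * n * K * (a * (1 + (N z + k z) / (En z * (2 * ρ z)))) ^ 2 / (η * k z) := by
  have h1 := sq_le hρ hρ1 h
  set M := 1 + (N z + k z) / (En z * (2 * ρ z)) with hM
  have M1 : 1 ≤ M := by
    have : 0 ≤ (N z + k z) / (En z * (2 * ρ z)) := by positivity
    linarith
  have M2 : 1 ≤ M ^ 2 := one_le_pow₀ M1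
  unfold Zc
  refine div_le_div_of_nonneg_right ?_ (mul_pos hη hk).le
  have a1 : 2 * ρ z * sq1 χ z * M ^ 2 ≤ 9 * n * a ^ 2 * M ^ 2 :=
    mul_le_mul_of_nonneg_right h1.1 (by positivity)
  have a2 : sqp χ z ≤ n * a ^ 2 * M ^ 2 := by
    refine h1.2.trans ?_
    exact le_mul_of_one_le_right (by positivity) M2
  have a3 := mul_le_mul_of_nonneg_left (add_le_add a1 a2) hK
  refine a3.trans (le_of_eq ?_)
  ring

end Vale.Agent.P088.R2.H867.Z
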