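import Vale.Agent.P088.R2.H867.Z.Ho3

/-!
# P088, stage 3, zone B1: the literal letters on the package

`d.psiB q`, `d.omB q`, `d.ZB q`, `d.ZB' q` and the weights `d.gB q = E / (1 + m)`, `d.eB q = E²`,
`d.hB q = (1 + m) / E`, `d.fB q = E (N + 1 + m)² / (1 + m)`, `d.wB q = E (1 + m)`.
-/

open Set Filter
open scoped Topology ContDiff Matrix

noncomputable section

namespace Vale.Agent.P088.R2.H31.EP

open Vale.Agent.P088.LR Vale.Agent.P088.HY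
open Vale.Agent.P088.R2.H464.Cu (mid dif rq)
open Vale.Agent.P088.R2.H932.EP (cN cSt)
open Vale.Agent.P088.R2.H867.Z (tt1 tt2 TT1 TT2 Sg gB eB hB fB wB KB Gp.c₁)

variable {n : ℕ}

/-- `α = cN ηc`: the size of the first derivatives of the cut `co`. -/
def Cst.αB (q : Cst) (n : ℕ) : ℝ := cN n q * q.ηc

/-- The constants (they depend on the constants before `rT`). -/
def Cst.c1B (q : Cst) (n : ℕ) : ℝ := Gp.c₁ (cN n q) BF

def Cst.AB (q : Cst) (n : ℕ) : ℝ := 4 * (n + 1) ^ 2 * q.c1B n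

def Cst.c2B (q : Cst) (n : ℕ) : ℝ := 50 * q.AB n * cSt * cN n q

def Cst.KB (q : Cst) (n : ℕ) (cW : ℝ) : ℝ := H867.Z.KB n (q.c2B n) cW (q.AB n)

/-- `1` on the supports of the majorants of the layers. -/
def Pk.T1B (d : Pk n) (q : Cst) : VV n → ℝ := TT1 q.ηc (d.cv q .co) (d.cv q .eB) (d.cv q .inf)

def Pk.T2B (d : Pk n) (q : Cst) : VV n → ℝ := TT2 (d.cv q .co) (d.cv q .eB) (d.cv q .inf)

def Pk.psiB (d : Pk n) (q : Cst) : VV n → ℝ :=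
  H867.Z.psiB (q.AB n) (q.αB n) q.ηc (d.cv q .co) (d.cv q .eB) (d.cv q .inf) (d.E q)
    (rq (gi d.s₁))

def Pk.omB (d : Pk n) (q : Cst) : VV n → ℝ :=
  H867.Z.omB (q.AB n) (q.αB n) q.ηc (d.cv q .co) (d.cv q .eB) (d.cv q .inf)

def Pk.gB (d : Pk n) (q : Cst) : VV n → ℝ := H867.Z.gB (d.E q) (rq (gi d.s₁))

def Pk.eB (d : Pk n) (q : Cst) : VV n → ℝ := H867.Z.eB (d.E q)

def Pk.hB (d : Pk n) (q : Cst) : VV n → ℝ := H867.Z.hB (d.E q) (rq (gi d.s₁))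

def Pk.fB (d : Pk n) (q : Cst) : VV n → ℝ := H867.Z.fB (d.E q) (rq (gi d.s₁)) (d.N q)

def Pk.wB (d : Pk n) (q : Cst) : VV n → ℝ := H867.Z.wB (d.E q) (rq (gi d.s₁))

/-- **The factor of the costs of zone B1**, with a free constant `K ≥ q.KB n cW`. -/
def Pk.ZB (d : Pk n) (q : Cst) (K : ℝ) : VV n → ℝ :=
  H867.Z.ZB K (q.αB n) (d.E q) (rq (gi d.s₁)) (d.N q) (d.T1B q) (d.T2B q)

/-- **The factor of the squares.** -/
def Pk.ZB' (d : Pk n) (q : Cst) (K : ℝ) : VV n → ℝ :=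
  H867.Z.ZB' K (q.αB n) (d.E q) (rq (gi d.s₁)) (d.T1B q) (d.T2B q)

variable (d : Pk n) (q : Cst) (K : ℝ) (z : VV n)

theorem Pk.m_eq : d.m q z = H867.Z.mB (d.E q) (rq (gi d.s₁)) z := rfl

theorem Pk.gB_eq : d.gB q z = d.E q z / (1 + d.m q z) := rfl

theorem Pk.eB_eq : d.eB q z = d.E q z ^ 2 := rfl

theorem Pk.hB_eq : d.hB q z = (1 + d.m q z) / d.E q z := rfl

theorem Pk.fB_eq : d.fB q z = d.E q z * (d.N q z + 1 + d.m q z) ^ 2 / (1 + d.m q z) := rfl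

theorem Pk.wB_eq : d.wB q z = d.E q z * (1 + d.m q z) := rfl

theorem Pk.ZB_eq : d.ZB q K z = K * (q.αB n * d.T1B q z +
    d.T2B q z * ((1 + d.m q z) / (d.N q z + 1 + d.m q z))) := rfl

theorem Pk.ZB'_eq : d.ZB' q K z = K * (q.αB n ^ 2 * d.T1B q z / (1 + d.m q z) ^ 2 +
    d.T2B q z / d.E q z) := rfl

theorem Pk.T1B_01 : 0 ≤ d.T1B q z ∧ d.T1B q z ≤ 1 := H867.Z.TT1_01 _ _ _ _ _

theorem Pk.T2B_01 : 0 ≤ d.T2B q z ∧ d.T2B q z ≤ 1 := H867.Z.TT2_01 _ _ _ _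

end Vale.Agent.P088.R2.H31.EP
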