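import Vale.Agent.P088.R2.H867.Z.CbT
import Vale.Agent.P088.R2.H696.B1.Cmp

/-!
# P088, zone B1: row X (the frozen data exist), from helper696's theorem
-/

open Set Filter
open scoped Topology ContDiff

noncomputable section

namespace Vale.Agent.P088.R2.H867.CbT

open Vale.Agent.P088.LR Vale.Agent.P088.HY
open Vale.Agent.P088.R2.H31.EP
open Vale.Agent.P088.R2.H724.B1 (OB)

/-- **Row X.** -/
theorem rowX {n : ℕ} (hn : 1 ≤ n) : RowX n := fun A e hA he h1 h2 =>
  (H696.B1.fro_ex' hn hA he (EvC.of h1) (EvC.of h2)).mono fun q H d h p₀ hp => by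
    obtain ⟨c, Nf, g, cm⟩ := H d h p₀ hp
    exact ⟨c, g.fro, g.mn, Nf, g.nf, g.ok, cm⟩

/-- **The curved box on the package from the classes of the family of cells.** -/
theorem rowCB' {n : ℕ} (hn : 3 ≤ n) (hF : RowF n) : RowCB n OB := rowCB hn (rowX (by omega)) hF

end Vale.Agent.P088.R2.H867.CbT
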