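import Vale.Agent.P088.R2.H867.Z.HoL
import Vale.Agent.P088.R2.H509.EP.Side

/-!
# P088, stage 3, zone B1: the region of the costs

`GB d q z`: the set where the majorants may not vanish. There the cuts `inf`, `rs`, `r`, `e0` are
off, only `zI`, `z2a`, `zB`, `z2b` are alive.
-/

open Set Filter
open scoped Topology ContDiff Matrix

noncomputable section

namespace Vale.Agent.P088.R2.H867.Z

open Vale.Agent.P088.LR Vale.Agent.P088.HY Vale.Agent.P088.R2.H961.GW Vale.Agent.P088.R2.H464.Cu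
open Vale.Agent.P088.R2.H31.EP
open Vale.Agent.P088.R2.H932.EP (NrC evNr cN cN_nb' tauR tauU m1x m1x_le m1x_pos)
open Vale.Agent.P088.R2.H867.EP (Cut Zo path sd Near Off RS Inf fac cs sn cs_zero fac_pair tauM
  pr_side)

variable {n : ℕ} {q : Cst} {d : Pk n} {z : VV n}

/-- **The region of zone B1 with its layers.** -/
def GB (d : Pk n) (q : Cst) (z : VV n) : Prop :=
  d.cv q .inf z < 1 ∧ -(1 / 2) < d.cv q .eB z ∧ d.cv q .co z < 3 / 2

/-- The threshold of `log M₀`. -/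
def thB (q : Cst) : ℝ := 30 + 2 / q.ηc + 2 * |Real.log q.c₀| + 2 * |Real.log q.aC|

/-- The conditions on the constants. -/
structure BC (n : ℕ) (q : Cst) : Prop where
  nr : NrC n q
  M : thB q ≤ Real.log q.M₀
  aη : cN n q * q.ηc ≤ 1
  nε : 4 * (n + 1) * q.ε ≤ 1
  Rn : 8 * (n + 1) ≤ q.R
  c0 : 0 < q.c₀

theorem evBC (n : ℕ) : EvC (BC n) := by
  have h1 : EvC fun q => thB q ≤ Real.log q.M₀ :=
    EvC.at_M₀ (fun q t => thB q ≤ Real.log t) fun q =>
      Real.tendsto_log_atTop.eventually (eventually_ge_atTop _)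
  have h2 : EvC fun q => 0 < cN n q → cN n q * q.ηc ≤ 1 :=
    EvC.at_ηc (fun q t => 0 < cN n q → cN n q * t ≤ 1) fun q => by
      by_cases h : 0 < cN n q
      · refine (sml_le (a := 1 / cN n q) (by positivity)).mono fun t ht _ => ?_
        rw [le_div_iff₀ h] at ht
        linarith
      · exact Eventually.of_forall fun _ h' => absurd h' h
  have h3 : EvC fun q => 4 * (n + 1) * q.ε ≤ 1 :=
    EvC.at_ε (fun _ t => 4 * ((n : ℝ) + 1) * t ≤ 1) fun _ => by
      refine (sml_le (a := 1 / (4 * ((n : ℝ) + 1))) (by positivity)).mono fun t ht => ?_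
      rw [le_div_iff₀ (by positivity)] at ht
      linarith
  have h4 : EvC fun q => 8 * ((n : ℝ) + 1) ≤ q.R :=
    EvC.at_R (fun _ t => 8 * ((n : ℝ) + 1) ≤ t) fun _ => eventually_ge_atTop _
  refine (((evNr n).and h1).and ((h2.and h3).and (h4.and EvC.pos))).mono ?_
  rintro q ⟨⟨a1, a2⟩, ⟨a3, a4⟩, a5, a6⟩
  refine ⟨a1, a2, a3 ?_, a4, a5, a6.1.2.2.2.2.2.1⟩
  have h := a1.dN_ge
  have k1 := H932.EP.cC_nn (n := n) (D := H932.EP.dN q) (by linarith)
  have k2 := H932.EP.cV_nn (n := n) (D := H932.EP.dN q) (by linarith)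
  have k3 := H932.EP.cSt_one
  unfold cN
  linarith

namespace BC

theorem cN1 (hq : BC n q) : 1 ≤ cN n q := by
  have h := hq.nr.dN_ge
  have k1 := H932.EP.cC_nn (n := n) (D := H932.EP.dN q) (by linarith)
  have k2 := H932.EP.cV_nn (n := n) (D := H932.EP.dN q) (by linarith)
  have k3 := H932.EP.cSt_one
  unfold cN
  linarith

theorem ε0 (hq : BC n q) : 0 < q.ε := hq.nr.cd.ε0

theorem th0 (hq : BC n q) : 30 ≤ thB q ∧ 30 + 2 / q.ηc + 2 * |Real.log q.c₀| ≤ thB q ∧
    30 + 2 * |Real.log q.aC| ≤ thB q := by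
  have h1 : 0 < 2 / q.ηc := by have := hq.nr.η0; positivity
  have h2 := abs_nonneg (Real.log q.c₀)
  have h3 := abs_nonneg (Real.log q.aC)
  unfold thB
  refine ⟨?_, ?_, ?_⟩ <;> linarith

theorem lN (hq : BC n q) (h : PkOk q d) (z : VV n) : thB q ≤ Real.log (d.N q z) := by
  have h1 := h.N_ge (d.u q z)
  have h2 : 0 < q.M₀ := by linarith [hq.nr.M1]
  exact hq.M.trans (Real.log_le_log h2 h1)

theorem u_gt (hz : GB d q z) : 13 / 5 * Real.log (d.N q z) - 35 / 100 < d.u q z := by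
  have h1 := hz.2.1
  have e : d.cv q .eB z = (d.u q z - 13 / 5 * Real.log (d.N q z) - 0) / Real.log 2 := rfl
  have l2 := Real.log_two_gt_d9
  have l3 := Real.log_two_lt_d9
  rw [e, lt_div_iff₀ (by linarith)] at h1
  linarith

theorem lnm (hq : BC n q) : 0 ≤ Real.log q.nm := Real.log_nonneg hq.nr.nm1

theorem u0u (h : PkOk q d) (z : VV n) : |d.u q z - d.u0 z| ≤ 1 / 4 := by
  have e : d.u q z - d.u0 z =
      2 * (d.χ (H31.EP.r2 (gi d.s₁) z) * d.μc q (d.l (mid z))) := by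
    have e : d.u q z = d.u0 z + 2 * (d.χ (H31.EP.r2 (gi d.s₁) z) * d.μc q (d.l (mid z))) := rfl
    rw [e]; ring
  have h1 := (d.μc_abs q (d.l (mid z))).trans (h.ph.μb _)
  have h2 := h.χb (H31.EP.r2 (gi d.s₁) z)
  have h3 : |d.χ (H31.EP.r2 (gi d.s₁) z) * d.μc q (d.l (mid z))| ≤ 1 * (1 / 8) := by
    rw [abs_mul]
    refine mul_le_mul ?_ h1 (abs_nonneg _) zero_le_one
    rw [abs_of_nonneg h2.1]; exact h2.2
  rw [e, abs_mul, abs_of_pos (by norm_num : (0 : ℝ) < 2)]
  linarith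

theorem u60 (hq : BC n q) (h : PkOk q d) (hz : GB d q z) : 60 ≤ d.u q z := by
  have h1 := hq.lN h z
  have h2 := hq.th0.1
  have h3 := u_gt hz
  linarith

/-- **`u ≤ uta`.** -/
theorem up (hq : BC n q) (h : PkOk q d) (hz : GB d q z) : d.u q z ≤ d.uta q := by
  have i := hq.nr.cd.inf
  have hR := hq.nr.R0
  have h1 := hq.lN h z
  have h2 := hq.th0.1
  have h3 := u_gt hz
  have h4 : d.tinf q z < 1 := hz.1
  rw [d.tinf_eq q] at h4
  have h5 := (H404.INF.tinf_lt i.κ0 i.σ0 i.R0 h4).2.2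
  have h6 := (abs_le.1 (u0u h z)).2
  have e0 : d.u0 z = d.l z.1 + d.l z.2 := rfl
  have e3 : d.utb q = 2 * d.l₀ q + 47 / 10 * q.R := rfl
  by_contra hc
  have h7 := hq.nr.slope h (not_le.1 hc).le (by rw [e3]; linarith)
  have e : Real.log (d.N q z) = Real.log (deriv d.Φ (d.u q z)) := rfl
  linarith

theorem m0 (hq : BC n q) (h : PkOk q d) (z : VV n) : 0 ≤ d.m q z := by
  have h1 := (hq.nr.rb d h z).1
  have e : d.m q z = Real.exp (d.u q z) * (2 * rq (gi d.s₁) z) := rfl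
  rw [e]
  have := Real.exp_pos (d.u q z)
  positivity

theorem M1p (hq : BC n q) (u : ℝ) : 0 < d.m₁ q u := by
  have hc : 0 ≤ q.σ / (q.CB * q.R) := by
    have h3 := hq.nr.CB1
    have h4 := hq.nr.R0
    have h5 := hq.nr.cd.inf.σ0
    positivity
  exact m1x_pos hc (d.ξ_is q) u

theorem M1le (hq : BC n q) (u : ℝ) : d.m₁ q u ≤ Real.exp (26 / 100 * u) := by
  have hc : 0 ≤ q.σ / (q.CB * q.R) := by
    have h3 := hq.nr.CB1
    have h4 := hq.nr.R0
    have h5 := hq.nr.cd.inf.σ0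
    positivity
  exact m1x_le hc (d.ξ_is q) u

/-- `M₁ ≥ 5`. -/
theorem M1ge (hq : BC n q) (h : PkOk q d) (hz : GB d q z) : 5 ≤ d.m₁ q (d.u q z) := by
  have h1 := hq.u60 h hz
  have h3 := hq.nr.CB1
  have h4 := hq.nr.R0
  have h5 := hq.nr.cd.inf.σ0
  have h6 := hq.nr.cd.inf.σ1
  have x1 := (d.ξ_is q).pos (d.u q z)
  have x2 := (d.ξ_is q).le (d.u q z)
  have e1 : Real.exp (-(26 / 100 * d.u q z)) ≤ 1 / 10 := by
    have k1 : Real.exp (-(26 / 100 * d.u q z)) ≤ Real.exp (-10) := Real.exp_le_exp.2 (by linarith)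
    have k2 : Real.exp (-10) ≤ 1 / 10 := by
      rw [Real.exp_neg, inv_eq_one_div]
      refine one_div_le_one_div_of_le (by norm_num) ?_
      have := Real.add_one_le_exp (10 : ℝ)
      linarith
    linarith
  have e2 : q.σ / (q.CB * q.R) ≤ 1 / 10 := by
    rw [div_le_iff₀ (by positivity)]
    nlinarith
  have e3 : 0 ≤ q.σ / (q.CB * q.R) := by positivity
  have e4 : q.σ / (q.CB * q.R) * d.ξ q (d.u q z) ≤ 1 / 10 := by nlinarith
  have e5 : 0 ≤ q.σ / (q.CB * q.R) * d.ξ q (d.u q z) := by positivity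
  have e6 : d.m₁ q (d.u q z) = (Real.exp (-(26 / 100 * d.u q z)) +
    q.σ / (q.CB * q.R) * d.ξ q (d.u q z))⁻¹ := rfl
  have e7 := Real.exp_pos (-(26 / 100 * d.u q z))
  rw [e6, le_inv_comm₀ (by norm_num) (by positivity)]
  linarith

theorem logΛ (q : Cst) : Real.log q.Λ = 1 / q.ηc := Real.log_exp _

/-- The variable of the core cut. -/
theorem co_eq (d : Pk n) (q : Cst) (z : VV n) : d.cv q .co z =
    (Real.log (1 + d.m q z / d.m₁ q (d.u q z)) - Real.log 2) / (1 / q.ηc) := by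
  have e : d.cv q .co z = (Real.log (1 + 2 * Real.exp (d.u q z) * rq (gi d.s₁) z /
    d.m₁ q (d.u q z)) - Real.log 2) / Real.log q.Λ := rfl
  have e2 : 2 * Real.exp (d.u q z) * rq (gi d.s₁) z = d.m q z := by
    have : d.m q z = Real.exp (d.u q z) * (2 * rq (gi d.s₁) z) := rfl
    rw [this]; ring
  rw [e, logΛ, e2]

/-- **`m ≤ 2 Λ^(3/2) M₁`.** -/
theorem m_le (hq : BC n q) (h : PkOk q d) (hz : GB d q z) :
    d.m q z ≤ 2 * Real.exp (3 / 2 / q.ηc) * d.m₁ q (d.u q z) := by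
  have h1 := hz.2.2
  have hη := hq.nr.η0
  have m0 := hq.m0 h z
  have mp := hq.M1p (d := d) (d.u q z)
  rw [co_eq, div_lt_iff₀ (by positivity)] at h1
  have h2 : Real.log (1 + d.m q z / d.m₁ q (d.u q z)) < Real.log (2 * Real.exp (3 / 2 / q.ηc)) := by
    rw [Real.log_mul (by norm_num) (Real.exp_pos _).ne', Real.log_exp]
    have : 3 / 2 * (1 / q.ηc) = 3 / 2 / q.ηc := by ring
    linarith
  have h3 : 0 ≤ d.m q z / d.m₁ q (d.u q z) := by positivity
  have h4 := (Real.log_lt_log_iff (by linarith) (by positivity)).1 h2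
  have h5 : d.m q z / d.m₁ q (d.u q z) ≤ 2 * Real.exp (3 / 2 / q.ηc) := by linarith
  rwa [div_le_iff₀ mp] at h5

/-- The distance is small. -/
theorem r2_le (hq : BC n q) (h : PkOk q d) (hz : GB d q z) :
    d.r2 z ≤ q.c₀ ^ 2 / 4 ∧ d.r2 z ≤ 1 / 16 := by
  have hη := hq.nr.η0
  have h1 := hq.m_le h hz
  have h2 := hq.M1le (d := d) (d.u q z)
  have hE := Real.exp_pos (d.u q z)
  have e : d.m q z = Real.exp (d.u q z) * d.r2 z := rfl
  have h3 : Real.exp (d.u q z) * d.r2 z ≤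
      2 * Real.exp (3 / 2 / q.ηc) * Real.exp (26 / 100 * d.u q z) := by
    rw [← e]
    exact h1.trans (mul_le_mul_of_nonneg_left h2 (by positivity))
  have h4 : d.r2 z ≤ 2 * Real.exp (3 / 2 / q.ηc + 26 / 100 * d.u q z - d.u q z) := by
    rw [Real.exp_sub, Real.exp_add, ← mul_div_assoc, le_div_iff₀ hE]
    linarith
  have h5 := hq.lN h z
  have h6 := u_gt hz
  obtain ⟨t1, t2, t3⟩ := hq.th0
  have hη2 : 0 < 1 / q.ηc := by positivity
  have ha := abs_nonneg (Real.log q.c₀)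
  have e32 : 3 / 2 / q.ηc = 3 / 2 * (1 / q.ηc) := by ring
  have e2 : 2 / q.ηc = 2 * (1 / q.ηc) := by ring
  rw [e2] at t2
  have h7 : 3 / 2 / q.ηc + 26 / 100 * d.u q z - d.u q z ≤ -10 - 2 * |Real.log q.c₀| := by
    rw [e32]
    nlinarith
  have x4 : (4 : ℝ) ≤ Real.exp 3 := by
    have := Real.add_one_le_exp (3 : ℝ)
    linarith
  have x32 : (32 : ℝ) ≤ Real.exp 10 := by
    have e : Real.exp 9 = Real.exp 3 * Real.exp 3 * Real.exp 3 := by
      rw [← Real.exp_add, ← Real.exp_add]; norm_num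
    have e2 : Real.exp 9 ≤ Real.exp 10 := Real.exp_le_exp.2 (by norm_num)
    have e3 : (4 : ℝ) * 4 ≤ Real.exp 3 * Real.exp 3 := mul_le_mul x4 x4 (by norm_num) (by positivity)
    have e4 : (4 : ℝ) * 4 * 4 ≤ Real.exp 3 * Real.exp 3 * Real.exp 3 :=
      mul_le_mul e3 x4 (by norm_num) (by positivity)
    linarith
  have h8 : 2 * Real.exp (3 / 2 / q.ηc + 26 / 100 * d.u q z - d.u q z) ≤
      1 / 16 * Real.exp (-(2 * |Real.log q.c₀|)) := by
    have k1 : Real.exp (3 / 2 / q.ηc + 26 / 100 * d.u q z - d.u q z) ≤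
        Real.exp (-10) * Real.exp (-(2 * |Real.log q.c₀|)) := by
      rw [← Real.exp_add]
      exact Real.exp_le_exp.2 (by linarith)
    have k2 : Real.exp (-10) ≤ 1 / 32 := by
      rw [Real.exp_neg, inv_eq_one_div]
      exact one_div_le_one_div_of_le (by norm_num) x32
    have k3 := mul_le_mul_of_nonneg_right k2 (Real.exp_pos (-(2 * |Real.log q.c₀|))).le
    linarith
  have h9 : Real.exp (-(2 * |Real.log q.c₀|)) ≤ 1 := Real.exp_le_one_iff.2 (by linarith)
  have h10 : Real.exp (-(2 * |Real.log q.c₀|)) ≤ q.c₀ ^ 2 := by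
    rw [← Real.exp_log (pow_pos hq.c0 2), Real.log_pow]
    refine Real.exp_le_exp.2 ?_
    have := neg_abs_le (Real.log q.c₀)
    push_cast
    linarith
  exact ⟨by linarith [sq_nonneg q.c₀], by linarith⟩

/-- `N² ≤ E`, .. -/
theorem num (hq : BC n q) (h : PkOk q d) (hz : GB d q z) : 1 ≤ d.N q z ∧ d.N q z ^ 2 ≤ d.E q z ∧
    2 * (1 + d.m q z) ≤ d.E q z ∧ d.N q z ^ (13 / 5 : ℝ) ≤ 2 * d.E q z := by
  have h1 := hq.lN h z
  obtain ⟨t1, -, -⟩ := hq.th0
  have h2 := u_gt hz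
  have h3 := hq.u60 h hz
  have hN : 0 < d.N q z := h.N_pos hq.nr.M1 _
  have N1 : 1 ≤ d.N q z := hq.nr.M1.trans (h.N_ge _)
  have hE : d.E q z = Real.exp (d.u q z) := rfl
  have r := (hq.r2_le h hz).2
  have e : d.m q z = Real.exp (d.u q z) * d.r2 z := rfl
  have hE8 : (8 : ℝ) ≤ Real.exp (d.u q z) := by
    have := Real.add_one_le_exp (d.u q z)
    linarith
  refine ⟨N1, ?_, ?_, ?_⟩
  · rw [hE, ← Real.exp_log (pow_pos hN 2), Real.log_pow]
    refine Real.exp_le_exp.2 ?_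
    push_cast
    linarith
  · rw [e, hE]
    have := mul_le_mul_of_nonneg_left r (Real.exp_pos (d.u q z)).le
    linarith
  · have l2 := Real.log_two_gt_d9
    have : Real.exp (Real.log (d.N q z) * (13 / 5)) ≤ Real.exp (Real.log 2 + d.u q z) :=
      Real.exp_le_exp.2 (by linarith)
    rw [Real.exp_add, Real.exp_log (by norm_num : (0 : ℝ) < 2), ← Real.rpow_def_of_pos hN] at this
    exact this

/-- The cut `inf` is off. -/
theorem inf0 (hq : BC n q) (h : PkOk q d) (hz : GB d q z) : d.cv q .inf z = 0 := by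
  have e : d.cv q .inf z = d.tinf q z := rfl
  have hR := hq.nr.R0
  have i := hq.nr.cd.inf
  have h1 := (hq.nr.rb d h z).2.1
  have h2 := (hq.r2_le h hz).2
  have e2 : d.r2 z = 2 * rq (gi d.s₁) z := rfl
  have h3 := abs_le.1 (u0u h z)
  have h4 := hq.u60 h hz
  have h5 := hq.up h hz
  have e3 : d.uta q = 2 * d.l₀ q + 45 / 10 * q.R := rfl
  have hk := hq.nr.Rk
  rw [e]
  unfold Pk.tinf
  have z1 : 4 * qq z / (q.κ₁ * q.R) ^ 2 - 1 ≤ 0 := by
    rw [sub_nonpos, div_le_one (by nlinarith)]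
    nlinarith
  have z2 : 10 * (-(q.σ / q.R * d.u0 z) - 3 / 2) ≤ 0 := by
    have : 0 ≤ q.σ / q.R * d.u0 z := by
      have := i.σ0
      have : 0 ≤ d.u0 z := by linarith
      positivity
    linarith
  have z3 : 20 * (d.u0 z - 2 * d.l₀ q) / q.R - 92 ≤ 0 := by
    rw [sub_nonpos, div_le_iff₀ (by linarith)]
    linarith
  rw [Real.smoothTransition.zero_of_nonpos z1, Real.smoothTransition.zero_of_nonpos z2,
    Real.smoothTransition.zero_of_nonpos z3]
  norm_num

/-- The cuts `rs`, `r` are off. -/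
theorem rs0 (hq : BC n q) (h : PkOk q d) (hz : GB d q z) : d.cv q .rs z ≤ 0 := by
  have e : d.cv q .rs z = (d.VS q (d.u q z) - 0) / 1 := rfl
  have h1 := hq.lN h z
  obtain ⟨t1, -, -⟩ := hq.th0
  have h2 := u_gt hz
  have h3 := hq.lnm
  have e2 : Real.log (d.N q z) = Real.log (deriv d.Φ (d.u q z)) := rfl
  rw [e]
  unfold Pk.VS
  rw [Real.smoothTransition.zero_of_nonpos (by linarith)]
  norm_num

theorem r0 (hq : BC n q) (h : PkOk q d) (hz : GB d q z) : d.cv q .r z ≤ 0 := by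
  have e : d.cv q .r z = (2 * rq (gi d.s₁) z - q.c₀ ^ 2) / (3 * q.c₀ ^ 2) := rfl
  have h1 := (hq.r2_le h hz).1
  have e2 : d.r2 z = 2 * rq (gi d.s₁) z := rfl
  have := hq.c0
  rw [e]
  refine div_nonpos_of_nonpos_of_nonneg ?_ (by positivity)
  rw [← e2]
  nlinarith

/-- The cut `e0` is off. -/
theorem e01 (hq : BC n q) (h : PkOk q d) (hz : GB d q z) : 1 ≤ d.cv q .e0 z := by
  have e : d.cv q .e0 z = (d.u q z - Real.log (deriv d.Φ (d.u q z)) - -Real.log q.aC) /
    Real.log 2 := rfl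
  have h1 := hq.lN h z
  obtain ⟨t1, -, t3⟩ := hq.th0
  have h2 := u_gt hz
  have l2 := Real.log_two_gt_d9
  have l3 := Real.log_two_lt_d9
  have e2 : Real.log (d.N q z) = Real.log (deriv d.Φ (d.u q z)) := rfl
  have := neg_abs_le (Real.log q.aC)
  have := abs_nonneg (Real.log q.aC)
  rw [e, one_le_div (by linarith)]
  linarith

/-- **The cut-off in the region.** -/
theorem ch_eq (hq : BC n q) (h : PkOk q d) (hz : GB d q z) :
    d.ch q .zB z = fac true (d.cv q .eB z) * fac false (d.cv q .co z) := by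
  have e : d.ch q .zB z = ∏ i ∈ path .zB, fac (sd .zB i) (d.cv q i z) := rfl
  have e1 : path .zB = {.inf, .rs, .r, .e0, .eB, .co} := rfl
  have f0 : ∀ t : ℝ, t ≤ 0 → fac false t = 1 := fun t ht => cs_zero ht
  have f1 : ∀ t : ℝ, 1 ≤ t → fac true t = 1 := fun t ht => H867.EP.sn_one ht
  rw [e, e1]
  rw [Finset.prod_insert (by decide), Finset.prod_insert (by decide),
    Finset.prod_insert (by decide), Finset.prod_insert (by decide),
    Finset.prod_insert (by decide), Finset.prod_singleton]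
  have s1 : sd .zB .inf = false := rfl
  have s2 : sd .zB .rs = false := rfl
  have s3 : sd .zB .r = false := rfl
  have s4 : sd .zB .e0 = true := rfl
  have s5 : sd .zB .eB = true := rfl
  have s6 : sd .zB .co = false := rfl
  rw [s1, s2, s3, s4, s5, s6, f0 _ (hq.inf0 h hz).le, f0 _ (hq.rs0 h hz), f0 _ (hq.r0 h hz),
    f1 _ (hq.e01 h hz), one_mul, one_mul, one_mul, one_mul]

/-- **Only the four zones are alive in the region.** -/
theorem only (hq : BC n q) (h : PkOk q d) (hz : GB d q z) {j : Zo} (hj : d.ch q j z ≠ 0) :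
    j = .zI ∨ j = .z2a ∨ j = .zB ∨ j = .z2b := by
  have key : ∀ {i : Cut}, i ∈ path j → (sd j i = true → 0 < d.cv q i z) ∧
      (sd j i = false → d.cv q i z < 1) := fun hi => pr_side Fl_pair hj hi
  have a1 := hq.inf0 h hz
  have a2 := hq.rs0 h hz
  have a3 := hq.r0 h hz
  have a4 := hq.e01 h hz
  have i1 : ∀ {k : Zo}, k = j → Cut.inf ∈ path k → sd k .inf = true → False := by
    rintro k rfl h1 h2
    have := (key h1).1 h2
    linarith
  have i2 : ∀ {k : Zo}, k = j → Cut.rs ∈ path k → sd k .rs = true → False := by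
    rintro k rfl h1 h2
    have := (key h1).1 h2
    linarith
  have i3 : ∀ {k : Zo}, k = j → Cut.r ∈ path k → sd k .r = true → False := by
    rintro k rfl h1 h2
    have := (key h1).1 h2
    linarith
  have i4 : ∀ {k : Zo}, k = j → Cut.e0 ∈ path k → sd k .e0 = false → False := by
    rintro k rfl h1 h2
    have := (key h1).2 h2
    linarith
  cases j
  case zI => exact Or.inl rfl
  case z2a => exact Or.inr (Or.inl rfl)
  case zB => exact Or.inr (Or.inr (Or.inl rfl))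
  case z2b => exact Or.inr (Or.inr (Or.inr rfl))
  case z0 => exact (i4 rfl (by decide) (by decide)).elim
  case iH => exact (i1 rfl (by decide) (by decide)).elim
  case iF => exact (i1 rfl (by decide) (by decide)).elim
  case iS => exact (i1 rfl (by decide) (by decide)).elim
  case RSn => exact (i2 rfl (by decide) (by decide)).elim
  case RSf => exact (i2 rfl (by decide) (by decide)).elim
  all_goals exact (i3 rfl (by decide) (by decide)).elim

theorem isOpen (hq : BC n q) (h : PkOk q d) : IsOpen {z | GB d q z} := by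
  have hs := (hq.nr.sm d h).cv
  have a1 : IsOpen {z | d.cv q .inf z < 1} := isOpen_lt (hs .inf).continuous continuous_const
  have a2 : IsOpen {z | -(1 / 2) < d.cv q .eB z} :=
    isOpen_lt continuous_const (hs .eB).continuous
  have a3 : IsOpen {z | d.cv q .co z < 3 / 2} := isOpen_lt (hs .co).continuous continuous_const
  exact a1.inter (a2.inter a3)

theorem ev (hq : BC n q) (h : PkOk q d) (hz : GB d q z) : ∀ᶠ y in 𝓝 z, GB d q y :=
  (hq.isOpen h).mem_nhds hz

end BC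

/-! ## Off the region -/

/-- Off the region all factors vanish. -/
theorem off (hz : ¬GB d q z) : tt1 q.ηc (d.cv q .co) (d.cv q .eB) (d.cv q .inf) z = 0 ∧
    tt2 (d.cv q .co) (d.cv q .eB) (d.cv q .inf) z = 0 ∧ d.T1B q z = 0 ∧ d.T2B q z = 0 := by
  have k : 1 ≤ d.cv q .inf z ∨ d.cv q .eB z ≤ -(1 / 2) ∨ 3 / 2 ≤ d.cv q .co z := by
    unfold GB at hz
    by_contra hc
    push Not at hc
    exact hz ⟨hc.1, hc.2.1, hc.2.2⟩
  have s0 : ∀ x : ℝ, x ≤ 0 → St x = 0 := fun x hx => Real.smoothTransition.zero_of_nonpos hx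
  unfold Pk.T1B Pk.T2B tt1 tt2 TT1 TT2
  rcases k with k | k | k
  · rw [H867.EP.cs_one k]
    simp
  · rw [s0 (4 * d.cv q .eB z + 1) (by linarith), s0 (4 * d.cv q .eB z + 2) (by linarith)]
    simp
  · rw [s0 (-4 * d.cv q .co z + 5) (by linarith), s0 (-4 * d.cv q .co z + 6) (by linarith)]
    simp

/-- **Off the region the factors of the costs vanish.** -/
theorem ZB_off (K : ℝ) (hz : ¬GB d q z) : d.ZB q K z = 0 ∧ d.ZB' q K z = 0 := by
  obtain ⟨-, -, h1, h2⟩ := off hz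
  rw [Pk.ZB_eq, Pk.ZB'_eq, h1, h2]
  simp

end Vale.Agent.P088.R2.H867.Z
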