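import Vale.Agent.P088.R2.H867.Z.CbF
import Vale.Agent.P088.R2.H942.B1.Hs
import Vale.Agent.P088.R2.H960.B1.Num

/-!
# P088, zone B1: **the curved box on the package**
-/

open MeasureTheory Set Filter
open scoped Topology ContDiff Matrix

noncomputable section

namespace Vale.Agent.P088.R2.H867.CbT

open Vale.Agent.P088.LR Vale.Agent.P088.HY
open Vale.Agent.P088.R2.H31.EP
open Vale.Agent.P088.R2.H724.B1 (OB Ix)

variable {n : ℕ}

/-- **Row F**: the classes of the family of all cells. -/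
theorem rowF (hn : 1 ≤ n) : RowF n := by
  intro A hA
  refine ⟨fun ph _ => TF n A ph, fun ph _ => famC hn (by linarith) fun hZ =>
    H942.B1.hs_cf _ _ hZ (fun x => x.ok.rg.sm₁) (fun x => x.ok.rg.sm₂)
      (fun x w i j => ((x.ok.rg.sy₁ w).apply i j).symm)
      (fun x w i j => ((x.ok.rg.sy₂ w).apply i j).symm), fun η hη h1 => ?_⟩
  have r1 : EvC fun q => 2 * (n * (3 * A + 1)) ≤ q.R :=
    EvC.at_R (fun _ t => 2 * (n * (3 * A + 1)) ≤ t) fun _ => eventually_ge_atTop _
  refine (((H606.EP.evLm hn).and (H960.B1.nb_ev (A := fun _ => A) hn (fun _ => rfl) hη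
    (EvC.of fun q => ⟨(h1 q).1, hA⟩))).and ((H644.B1.TL.ev n).and
    ((H696.B1.TB.ev n (e := fun _ => 1) (fun _ => rfl) (EvC.of fun _ => ⟨one_pos, le_rfl⟩)).and
    (r1.and (H281.EP.rowBas n))))).mono ?_
  rintro q ⟨⟨m, nb⟩, tl, tb, r1, hB⟩
  exact
    { ph := rfl
      e0 := m.eg0
      nb := nb
      tl := tl
      tb := tb
      rn := by linarith
      sw := fun d h => (hB d h).W }

/-- **The curved box on the package**, `n ≥ 3`. -/
theorem rowCB_all (hn : 3 ≤ n) : RowCB n OB := rowCB' hn (rowF (by omega))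

end Vale.Agent.P088.R2.H867.CbT
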