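import Vale.Agent.P088.R2.H867.Z.Ho5

/-!
# P088, stage 3, zone B1: the cut-off conditions on the package, every point, smoothness
-/

open Set Filter
open scoped Topology ContDiff Matrix

noncomputable section

namespace Vale.Agent.P088.R2.H867.Z

open Vale.Agent.P088.LR Vale.Agent.P088.HY Vale.Agent.P088.R2.H961.GW Vale.Agent.P088.R2.H464.Cu
open Vale.Agent.P088.R2.H31.EP
open Vale.Agent.P088.R2.H644 (Ch.Gr)
open Vale.Agent.P088.R2.H86.Z (El)
open Vale.Agent.P088.R2.H932.EP (NrC evNr cN ep Lx_eq Ly_eq)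
open Vale.Agent.P088.R2.H867.EP (Cut Zo path sd fac cs sn cs_sm cs_nn fac_pair)

variable {n : ℕ} {q : Cst} {d : Pk n} {z : VV n}

/-- Larger factors. -/
theorem HO'.mono {s₁ s₂ : MF n} {W χ ψ om w g e h f₀ Z Z' Z₂ Z₂' : VV n → ℝ} {z : VV n}
    (H : HO' s₁ s₂ W χ ψ om w g e h f₀ Z Z' z) (h1 : Z z ≤ Z₂ z) (h2 : Z' z ≤ Z₂' z) :
    HO' s₁ s₂ W χ ψ om w g e h f₀ Z₂ Z₂' z := by
  have me := mul_le_mul_of_nonneg_right h1 H.e0
  have mf := mul_le_mul_of_nonneg_right h1 H.f0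
  have mg := mul_le_mul_of_nonneg_right h1 H.g0
  have mw := mul_le_mul_of_nonneg_right h2 H.w0.le
  exact
    { w0 := H.w0
      h0 := H.h0
      g0 := H.g0
      e0 := H.e0
      Z0 := H.Z0.trans h1
      z0 := H.z0.trans h2
      f0 := H.f0
      d1 := H.d1
      d2 := H.d2
      dd := H.dd
      l1 := H.l1.trans me
      l2 := H.l2.trans mf
      l3 := H.l3.trans mf
      hw := H.hw
      od := H.od
      gg := H.gg.trans mg
      kk := H.kk.trans mf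
      b1 := H.b1.trans me
      b2 := H.b2.trans me
      c1 := H.c1.trans mf
      c2 := H.c2.trans mf
      k1 := H.k1.trans mw
      k2 := H.k2.trans mw
      nd := H.nd.trans mf }

/-- Where everything vanishes. -/
theorem HO'.flat {s₁ s₂ : MF n} {W χ ψ om w g e h f₀ Z Z' : VV n → ℝ} {z : VV n}
    (hs₁ : ∀ i j, DifferentiableAt ℝ (fun x => s₁ x i j) z.1)
    (hs₂ : ∀ i j, DifferentiableAt ℝ (fun x => s₂ x i j) z.2) (w0 : 0 < w z) (h0 : 0 ≤ h z)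
    (g0 : 0 ≤ g z) (e0 : 0 ≤ e z) (f0 : 0 ≤ f₀ z) (Z0 : 0 ≤ Z z) (z0 : 0 ≤ Z' z)
    (x1 : ∀ v, fderiv ℝ χ z v = 0) (x2 : ∀ v w, H867.Z.d2 χ z v w = 0) (p0 : ψ z = 0)
    (p1 : ∀ v, fderiv ℝ ψ z v = 0) (o0 : om z = 0) (o1 : ∀ v, fderiv ℝ om z v = 0) :
    HO' s₁ s₂ W χ ψ om w g e h f₀ Z Z' z := by
  have Dx : ∀ i, (sx s₁).D i χ z = 0 := fun i => by rw [Dx1]; exact x1 _
  have Dy : ∀ i, (sy s₂).D i χ z = 0 := fun i => by rw [Dy1]; exact x1 _
  have Lx : (sx s₁).Λ χ z = 0 := by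
    rw [Lx_eq hs₁]
    refine Finset.sum_eq_zero fun i _ => Finset.sum_eq_zero fun j _ => ?_
    have a1 : fderiv ℝ (fun y => fderiv ℝ χ y (Pi.single j 1, 0)) z (Pi.single i 1, 0) = 0 :=
      x2 _ _
    rw [a1, x1]; ring
  have Ly : (sy s₂).Λ χ z = 0 := by
    rw [Ly_eq hs₂]
    refine Finset.sum_eq_zero fun i _ => Finset.sum_eq_zero fun j _ => ?_
    have a1 : fderiv ℝ (fun y => fderiv ℝ χ y (0, Pi.single j 1)) z (0, Pi.single i 1) = 0 :=
      x2 _ _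
    rw [a1, x1]; ring
  have Gx : ∀ i, Ch.Gr (sx s₁) χ i z = 0 := fun i => by
    unfold Ch.Gr
    exact Finset.sum_eq_zero fun j _ => by rw [Dx j, mul_zero]
  have Gy : ∀ i, Ch.Gr (sy s₂) χ i z = 0 := fun i => by
    unfold Ch.Gr
    exact Finset.sum_eq_zero fun j _ => by rw [Dy j, mul_zero]
  have Px : ∀ i, (sx s₁).D i ψ z = 0 := fun i => by rw [Dx1]; exact p1 _
  have Py : ∀ i, (sy s₂).D i ψ z = 0 := fun i => by rw [Dy1]; exact p1 _
  have Ox : ∀ i, (sx s₁).D i om z = 0 := fun i => by rw [Dx1]; exact o1 _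
  have Oy : ∀ i, (sy s₂).D i om z = 0 := fun i => by rw [Dy1]; exact o1 _
  have G1 : (sx s₁).Γ ψ ψ z = 0 := by unfold Sl.Γ; simp [Px]
  have G2 : (sy s₂).Γ ψ ψ z = 0 := by unfold Sl.Γ; simp [Py]
  have G3 : (sx s₁).Γ om om z = 0 := by unfold Sl.Γ; simp [Ox]
  have G4 : (sy s₂).Γ om om z = 0 := by unfold Sl.Γ; simp [Oy]
  have ze := mul_nonneg Z0 e0
  have zf := mul_nonneg Z0 f0
  have zg := mul_nonneg Z0 g0
  have zw := mul_nonneg z0 w0.le
  exact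
    { w0 := w0
      h0 := h0
      g0 := g0
      e0 := e0
      Z0 := Z0
      z0 := z0
      f0 := f0
      d1 := by simp [Dx, p0]
      d2 := by simp [Dy, p0]
      dd := by simp [Dx, Dy, o0]
      l1 := by rw [Lx, Ly]; simpa using ze
      l2 := by rw [Lx, Ly]; simpa using zf
      l3 := by rw [Lx, Ly]; simpa using zf
      hw := by simp [p0, o0]
      od := by simp [Gx, Gy, o0]
      gg := by rw [p0]; simpa using zg
      kk := by rw [p0]; simpa using zf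
      b1 := by rw [p0, G1]; simpa using ze
      b2 := by rw [p0, G2]; simpa using ze
      c1 := by rw [o0, G3]; simpa using zf
      c2 := by rw [o0, G4]; simpa using zf
      k1 := by rw [p0]; simpa using zw
      k2 := by rw [o0]; simpa using zw
      nd := by
        refine le_trans (le_of_eq ?_) zf
        refine Finset.sum_eq_zero fun i _ => Finset.sum_eq_zero fun j _ => ?_
        rw [nd_eq i j, x2]
        norm_num }

/-- Off the region the cut-off vanishes to second order. -/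
theorem BC.flat (hq : BC n q) (h : PkOk q d) (hz : ¬GB d q z) :
    (∀ v, fderiv ℝ (d.ch q .zB) z v = 0) ∧ ∀ v w, H867.Z.d2 (d.ch q .zB) z v w = 0 := by
  have hs := (hq.nr.sm d h).cv
  have c2 : ∀ {f : VV n → ℝ}, ContDiff ℝ ∞ f → ContDiffAt ℝ 2 f z := fun hf =>
    hf.contDiffAt.of_le (WithTop.coe_le_coe.2 le_top)
  have key : ∀ i : Cut, i ∈ path .zB → (sd .zB i = false ∧ 1 ≤ d.cv q i z ∨
      sd .zB i = true ∧ d.cv q i z ≤ 0) →
      (∀ v, fderiv ℝ (d.ch q .zB) z v = 0) ∧ ∀ v w, H867.Z.d2 (d.ch q .zB) z v w = 0 := by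
    intro i hi hc
    have e : d.ch q .zB = fun y => fac (sd .zB i) (d.cv q i y) *
        ∏ j ∈ (path .zB).erase i, fac (sd .zB j) (d.cv q j y) := by
      funext y
      exact (Finset.mul_prod_erase (path .zB) (fun j => fac (sd .zB j) (d.cv q j y)) hi).symm
    have ht : d.cv q i z ≤ 0 ∨ 1 ≤ d.cv q i z := by
      rcases hc with hc | hc
      · exact Or.inr hc.2
      · exact Or.inl hc.2
    have d1 : deriv (fac (sd .zB i)) (d.cv q i z) = 0 := by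
      have := (fac_pair.stp (sd .zB i)).vanish (j := 1) le_rfl ht
      rwa [iteratedDeriv_one] at this
    have d2 : deriv (deriv (fac (sd .zB i))) (d.cv q i z) = 0 := by
      have := (fac_pair.stp (sd .zB i)).vanish (j := 2) (by norm_num) ht
      rwa [iteratedDeriv_succ, iteratedDeriv_one] at this
    have f0 : fac (sd .zB i) (d.cv q i z) = 0 := by
      rcases hc with ⟨a, b⟩ | ⟨a, b⟩
      · rw [a]; exact fac_pair.f1 _ b
      · rw [a]; exact fac_pair.t0 _ b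
    have k := H867.Z.flat_comp (c2 (hs i)) (fac_pair.stp (sd .zB i)).sm d1 d2
    have s1 : ContDiffAt ℝ 2 (fun y => fac (sd .zB i) (d.cv q i y)) z :=
      c2 ((fac_pair.stp _).sm.comp (hs i))
    have s2 : ContDiffAt ℝ 2 (fun y => ∏ j ∈ (path .zB).erase i, fac (sd .zB j) (d.cv q j y)) z :=
      c2 (contDiff_prod fun j _ => (fac_pair.stp _).sm.comp (hs j))
    rw [e]
    refine ⟨fun v => ?_, fun v w => ?_⟩
    · rw [H867.Z.fd_mul s1 s2, f0, k.2.1]; ring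
    · rw [d2_mul s1 s2, f0, k.2.1, k.2.1, k.2.2]; ring
  have k : 1 ≤ d.cv q .inf z ∨ d.cv q .eB z ≤ -(1 / 2) ∨ 3 / 2 ≤ d.cv q .co z := by
    unfold GB at hz
    by_contra hc
    push Not at hc
    exact hz ⟨hc.1, hc.2.1, hc.2.2⟩
  rcases k with k | k | k
  · exact key .inf (by decide) (Or.inl ⟨rfl, k⟩)
  · exact key .eB (by decide) (Or.inr ⟨rfl, by linarith⟩)
  · exact key .co (by decide) (Or.inl ⟨rfl, by linarith⟩)

theorem BC.AB0 (hq : BC n q) : 0 ≤ q.AB n := by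
  have hc := hq.cN1
  have hB := Fl_PB.one
  unfold Cst.AB Cst.c1B Gp.c₁
  positivity

theorem BC.αB0 (hq : BC n q) : 0 ≤ q.αB n := by
  have hc := hq.cN1
  have hη := hq.nr.η0
  unfold Cst.αB
  positivity

theorem BC.psi_nn (hq : BC n q) (d : Pk n) (z : VV n) : 0 ≤ d.psiB q z := by
  have h1 := hq.AB0
  have h2 := hq.αB0
  have a1 := (tt1_01 q.ηc (d.cv q .co) (d.cv q .eB) (d.cv q .inf) z).1
  have a2 := (tt2_01 (d.cv q .co) (d.cv q .eB) (d.cv q .inf) z).1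
  have a3 : 0 ≤ Sg (d.E q) (rq (gi d.s₁)) z := Real.sqrt_nonneg _
  have e : d.psiB q z = q.AB n * (q.αB n * tt1 q.ηc (d.cv q .co) (d.cv q .eB) (d.cv q .inf) z *
    Sg (d.E q) (rq (gi d.s₁)) z + tt2 (d.cv q .co) (d.cv q .eB) (d.cv q .inf) z) := rfl
  rw [e]
  positivity

theorem BC.om_nn (hq : BC n q) (d : Pk n) (z : VV n) : 0 ≤ d.omB q z := by
  have h1 := hq.AB0
  have h2 := hq.αB0
  have a1 := (tt1_01 q.ηc (d.cv q .co) (d.cv q .eB) (d.cv q .inf) z).1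
  have a2 := (tt2_01 (d.cv q .co) (d.cv q .eB) (d.cv q .inf) z).1
  have e : d.omB q z = q.AB n * (q.αB n * tt1 q.ηc (d.cv q .co) (d.cv q .eB) (d.cv q .inf) z +
    tt2 (d.cv q .co) (d.cv q .eB) (d.cv q .inf) z) := rfl
  rw [e]
  positivity

theorem BC.psi_off (hq : BC n q) (hz : ¬GB d q z) : d.psiB q z = 0 ∧ d.omB q z = 0 ∧
    (∀ v, fderiv ℝ (d.psiB q) z v = 0) ∧ ∀ v, fderiv ℝ (d.omB q) z v = 0 := by
  obtain ⟨h1, h2, -, -⟩ := off hz
  have e : d.omB q z = q.AB n * (q.αB n * tt1 q.ηc (d.cv q .co) (d.cv q .eB) (d.cv q .inf) z +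
    tt2 (d.cv q .co) (d.cv q .eB) (d.cv q .inf) z) := rfl
  have e2 : d.psiB q z = q.AB n * (q.αB n * tt1 q.ηc (d.cv q .co) (d.cv q .eB) (d.cv q .inf) z *
    Sg (d.E q) (rq (gi d.s₁)) z + tt2 (d.cv q .co) (d.cv q .eB) (d.cv q .inf) z) := rfl
  have f1 : d.psiB q z = 0 := by rw [e2, h1, h2]; ring
  have f2 : d.omB q z = 0 := by rw [e, h1, h2]; ring
  exact ⟨f1, f2, fun v => fd_min (fun y => hq.psi_nn d y) f1,
    fun v => fd_min (fun y => hq.om_nn d y) f2⟩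

theorem BC.E0 (d : Pk n) (q : Cst) (z : VV n) : 0 < d.E q z := Real.exp_pos _

theorem BC.Q0 (hq : BC n q) (h : PkOk q d) (z : VV n) :
    0 ≤ Qs (d.N q z) (d.m q z) (q.αB n) (d.T1B q z) (d.T2B q z) := by
  have h1 := (d.T1B_01 q z).1
  have h2 := (d.T2B_01 q z).1
  have h3 := hq.m0 h z
  have h4 := hq.αB0
  have h5 : 0 < d.N q z := h.N_pos hq.nr.M1 _
  unfold Qs
  positivity

theorem BC.ZB0 (hq : BC n q) (h : PkOk q d) (z : VV n) {K : ℝ} (hK : 0 ≤ K) :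
    0 ≤ d.ZB q K z ∧ 0 ≤ d.ZB' q K z := by
  have h1 := (d.T1B_01 q z).1
  have h2 := (d.T2B_01 q z).1
  have h3 := hq.m0 h z
  have h6 := BC.E0 d q z
  refine ⟨mul_nonneg hK (hq.Q0 h z), ?_⟩
  rw [Pk.ZB'_eq]
  positivity

/-- **All cut-off conditions of zone B1 (except the star density) at every point.** -/
theorem BC.ho' (hq : BC n q) (h : PkOk q d) {cW K : ℝ} (h0 : 0 ≤ cW) (hK : q.KB n cW ≤ K)
    (z : VV n) (H : GB d q z → HBz d q cW z) :
    HO' d.s₁ d.s₂ (d.W q) (d.ch q .zB) (d.psiB q) (d.omB q) (d.wB q) (d.gB q) (d.eB q) (d.hB q)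
      (d.fB q) (d.ZB q K) (d.ZB' q K) z := by
  have K0 : 0 ≤ q.KB n cW := (KB_big (n := n) (c := q.c2B n) (A := q.AB n) h0).2.2.2.2.2
  have m0 := hq.m0 h z
  have E0 := BC.E0 d q z
  have N0 : 0 < d.N q z := h.N_pos hq.nr.M1 _
  by_cases hz : GB d q z
  · have k := (hq.hp h hz h0 (H hz)).ho
    refine HO'.mono (Z := d.ZB q (q.KB n cW)) (Z' := d.ZB' q (q.KB n cW)) k ?_ ?_
    · exact mul_le_mul_of_nonneg_right hK (hq.Q0 h z)
    · have h1 := (hq.ZB0 h z zero_le_one).2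
      have e : ∀ K : ℝ, d.ZB' q K z = K * d.ZB' q 1 z := fun K => by
        rw [Pk.ZB'_eq, Pk.ZB'_eq]; ring
      rw [e, e K]
      exact mul_le_mul_of_nonneg_right hK h1
  · obtain ⟨p0, o0, p1, o1⟩ := hq.psi_off hz
    obtain ⟨x1, x2⟩ := hq.flat h hz
    refine HO'.flat (fun i j => ((h.rg.sm₁ i j).differentiable (by simp)) _)
      (fun i j => ((h.rg.sm₂ i j).differentiable (by simp)) _) ?_ ?_ ?_ ?_ ?_
      (hq.ZB0 h z (K0.trans hK)).1 (hq.ZB0 h z (K0.trans hK)).2 x1 x2 p0 p1 o0 o1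
    · rw [Pk.wB_eq]; positivity
    · rw [Pk.hB_eq]; positivity
    · rw [Pk.gB_eq]; positivity
    · rw [Pk.eB_eq]; positivity
    · rw [Pk.fB_eq]; positivity

/-! ## Smoothness -/

section sm

variable (hq : BC n q) (h : PkOk q d)
include hq h

theorem BC.sE : ContDiff ℝ ∞ (d.E q) := (hq.nr.sm d h).u.exp

theorem BC.sN : ContDiff ℝ ∞ (d.N q) := h.Φ's.comp (hq.nr.sm d h).u

theorem BC.sm_ : ContDiff ℝ ∞ (d.m q) :=
  (hq.sE h).mul (contDiff_const.mul (hq.nr.sm d h).rq)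

theorem BC.s1m : ContDiff ℝ ∞ fun z => 1 + d.m q z := contDiff_const.add (hq.sm_ h)

theorem BC.swB : ContDiff ℝ ∞ (d.wB q) := (hq.sE h).mul (hq.s1m h)

theorem BC.sgB : ContDiff ℝ ∞ (d.gB q) := (hq.sE h).div (hq.s1m h) fun z => by
  have := hq.m0 h z
  positivity

theorem BC.seB : ContDiff ℝ ∞ (d.eB q) := (hq.sE h).pow 2

theorem BC.shB : ContDiff ℝ ∞ (d.hB q) := (hq.s1m h).div (hq.sE h) fun z => (BC.E0 d q z).ne'

theorem BC.sfB : ContDiff ℝ ∞ (d.fB q) :=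
  ((hq.sE h).mul ((((hq.sN h).add contDiff_const).add (hq.sm_ h)).pow 2)).div (hq.s1m h)
    fun z => by
      have := hq.m0 h z
      positivity

theorem BC.sSt {i : Cut} (k e : ℝ) : ContDiff ℝ ∞ fun z => St (k * d.cv q i z + e) :=
  Real.smoothTransition.contDiff.comp
    ((contDiff_const.mul ((hq.nr.sm d h).cv i)).add contDiff_const)

theorem BC.sci : ContDiff ℝ ∞ fun z => cs (d.cv q .inf z) := cs_sm.comp ((hq.nr.sm d h).cv .inf)

theorem BC.st1 : ContDiff ℝ ∞ (tt1 q.ηc (d.cv q .co) (d.cv q .eB) (d.cv q .inf)) :=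
  (((hq.sSt h (i := .co) _ _).mul (hq.sSt h (i := .co) _ _)).mul (hq.sSt h (i := .eB) _ _)).mul
    (hq.sci h)

theorem BC.st2 : ContDiff ℝ ∞ (tt2 (d.cv q .co) (d.cv q .eB) (d.cv q .inf)) :=
  (((hq.sSt h (i := .eB) _ _).mul (hq.sSt h (i := .eB) _ _)).mul (hq.sSt h (i := .co) _ _)).mul
    (hq.sci h)

theorem BC.sT1 : ContDiff ℝ ∞ (d.T1B q) :=
  (((hq.sSt h (i := .co) _ _).mul (hq.sSt h (i := .co) _ _)).mul (hq.sSt h (i := .eB) _ _)).mul
    (hq.sci h)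

theorem BC.sT2 : ContDiff ℝ ∞ (d.T2B q) :=
  (((hq.sSt h (i := .eB) _ _).mul (hq.sSt h (i := .eB) _ _)).mul (hq.sSt h (i := .co) _ _)).mul
    (hq.sci h)

theorem BC.sSg : ContDiff ℝ ∞ (Sg (d.E q) (rq (gi d.s₁))) := (hq.sgB h).sqrt fun z => by
  have := hq.m0 h z
  have := BC.E0 d q z
  rw [Pk.gB_eq]
  positivity

theorem BC.spsi : ContDiff ℝ ∞ (d.psiB q) :=
  contDiff_const.mul (((contDiff_const.mul (hq.st1 h)).mul (hq.sSg h)).add (hq.st2 h))

theorem BC.som : ContDiff ℝ ∞ (d.omB q) :=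
  contDiff_const.mul ((contDiff_const.mul (hq.st1 h)).add (hq.st2 h))

theorem BC.sZB (K : ℝ) : ContDiff ℝ ∞ (d.ZB q K) := by
  have h1 : ContDiff ℝ ∞ fun z => (1 + d.m q z) / (d.N q z + 1 + d.m q z) :=
    (hq.s1m h).div (((hq.sN h).add contDiff_const).add (hq.sm_ h)) fun z => by
      have := hq.m0 h z
      have : 0 < d.N q z := h.N_pos hq.nr.M1 _
      positivity
  exact contDiff_const.mul ((contDiff_const.mul (hq.sT1 h)).add ((hq.sT2 h).mul h1))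

theorem BC.sZB' (K : ℝ) : ContDiff ℝ ∞ (d.ZB' q K) := by
  have h1 : ContDiff ℝ ∞ fun z => q.αB n ^ 2 * d.T1B q z / (1 + d.m q z) ^ 2 :=
    (contDiff_const.mul (hq.sT1 h)).div ((hq.s1m h).pow 2) fun z => by
      have := hq.m0 h z
      positivity
  have h2 : ContDiff ℝ ∞ fun z => d.T2B q z / d.E q z :=
    (hq.sT2 h).div (hq.sE h) fun z => (BC.E0 d q z).ne'
  exact contDiff_const.mul (h1.add h2)

end sm

end Vale.Agent.P088.R2.H867.Z
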