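import Vale.Agent.P088.R2.H867.Z.Obf
import Vale.Agent.P088.R2.H593.B1.Wp
import Vale.Agent.P088.R2.H696.B1.Fin

/-!
# P088, zone B1: the curved box on the package from the classes of the family of cells
-/

open MeasureTheory Set Filter
open scoped Topology ContDiff Matrix

noncomputable section

namespace Vale.Agent.P088.R2.H867.CbT

open Vale.Agent.P088.LR Vale.Agent.P088.HY
open Vale.Agent.P088.R2.H464
open Vale.Agent.P088.R2.H464.Cu (mid)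
open Vale.Agent.P088.R2.H464.B (Ge Hy Hm Hs Sc zr)
open Vale.Agent.P088.R2.H961.F (CD Gf fe fr fs fd)
open Vale.Agent.P088.R2.H961.GW (slx sly)
open Vale.Agent.P088.R2.H31.EP
open Vale.Agent.P088.R2.H516.B (mu Wd)
open Vale.Agent.P088.R2.H516.O (CB)
open Vale.Agent.P088.R2.H593.B (eta0 eps0)
open Vale.Agent.P088.R2.H593.B1 (Cmp wdT wk_pk wt_pk)
open Vale.Agent.P088.R2.H676.F (MN Cd Wk Wt cO CO cO_pos CO_nn Mxf F5t fam_cd' cb_zone' Zp)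
open Vale.Agent.P088.R2.H696.B1 (LamB c2B)
open Vale.Agent.P088.R2.H724.B1 (OB Zk Ix Fro ff fN fδ fκ ft fν)
open Vale.Agent.P088.R2.H856.O (dB)
open Vale.Agent.P088.R2.H858.B1 (hbC hbC_nonneg)
open Vale.Agent.P088.R2.H867.Z (ObF obf BC evBC)

variable {n : ℕ}

/-- **The classes of the family of cells.** -/
structure FamC (n : ℕ) (A : ℝ) (T : Cst → ℝ → Prop) : Prop where
  op : ∀ x : Ix n A T, IsOpen x.Z
  sW : ∀ x : Ix n A T, ContDiff ℝ ∞ x.W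
  H : Hy (Gf (fun x : Ix n A T => x.c) Ix.Z op) (fe fun x : Ix n A T => x.c)
    (fr fun x : Ix n A T => x.c) (ft (fun x : Ix n A T => x.c) fN) fδ
    (fs (fun x : Ix n A T => x.c) (fun x => x.d.s₁) fun x => x.d.s₂)
    (fd (fun x : Ix n A T => x.c) (fun x => x.d.s₁) fun x => x.d.s₂)
    Ix.W fun x => (x.c.T.w : VV n → ℝ)
  H₀ : Hy (Gf (fun x : Ix n A T => x.c) Ix.Z op) (fe fun x : Ix n A T => x.c)
    (fr fun x : Ix n A T => x.c) (ft (fun x : Ix n A T => x.c) fN) fδ zr zr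
    (fun x => (x.c.T.w : VV n → ℝ)) fun x => (x.c.T.w : VV n → ℝ)
  hm : Hm (Gf (fun x : Ix n A T => x.c) Ix.Z op) (fr fun x : Ix n A T => x.c) fκ
    (fs (fun x : Ix n A T => x.c) (fun x => x.d.s₁) fun x => x.d.s₂)
    (fd (fun x : Ix n A T => x.c) (fun x => x.d.s₁) fun x => x.d.s₂)
  hs : Hs (Gf (fun x : Ix n A T => x.c) Ix.Z op)
    (fs (fun x : Ix n A T => x.c) (fun x => x.d.s₁) fun x => x.d.s₂)
    (fd (fun x : Ix n A T => x.c) (fun x => x.d.s₁) fun x => x.d.s₂)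
  sc : ∃ CS : ℝ, 0 ≤ CS ∧ Sc (Gf (fun x : Ix n A T => x.c) Ix.Z op) (fe fun x : Ix n A T => x.c)
    (fr fun x : Ix n A T => x.c) (ft (fun x : Ix n A T => x.c) fN) fδ fκ
    (fun x => (mu x.c.T : VV n → ℝ)) (fν (fun x : Ix n A T => x.c) fN) fun x _ => CS * x.η

/-- The constants of a family. -/
def FamK (n : ℕ) (A : ℝ) (T : Cst → ℝ → Prop) (Lam CW Cf K : ℝ) : Prop :=
  ∀ (x : Ix n A T) (Nf : EP.Sm (VV n)) (eps eta : ℝ) (Ω : Set (VV n))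
    (e hh hi wc dt : VV n → ℝ) (w : Wd x.c.T),
    x.c.Ok x.Z Nf Lam eps → eps ≤ eps0 n Lam → MN x.c →
    (∀ z ∈ x.Z, (Nf : VV n → ℝ) z = fN x z) →
    0 ≤ eta → eta ≤ eta0 n Lam Cf → K * x.η ≤ eta →
    (∀ z ∈ x.Z, Wk x.c.T w Nf e hh hi wc dt CW eta z) → Wt univ Ω e hh hi wc dt → x.Z ⊆ Ω →
    Cd x.d.sx x.d.sy univ x.Z (fun _ => 1) (fun _ => 0) (fun _ => 0) (x.d.W x.q) e hh hi wc dt
      (cO n Lam CW) (CO n Lam CW)

theorem famK_of (hn : 3 ≤ n) {A : ℝ} {T : Cst → ℝ → Prop} (F : FamC n A T) {Lam CW : ℝ}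
    (hC : 1 ≤ CW) : ∃ Cf K : ℝ, 0 ≤ Cf ∧ 1 ≤ K ∧ FamK n A T Lam CW Cf K := by
  obtain ⟨CS, hCS, sc⟩ := F.sc
  obtain ⟨C, Cf, hC0, hCf0, key⟩ := fam_cd' (W' := fun x : Ix n A T => (⟨x.W, F.sW x⟩ :
    EP.Sm (VV n))) F.op hn (fun x => x.ok.rg.sm₁) (fun x => x.ok.rg.sm₂)
    (fun x y i j => ((x.ok.rg.sy₁ y).apply i j).symm)
    (fun x y i j => ((x.ok.rg.sy₂ y).apply i j).symm) F.H F.H₀ F.hm F.hs sc
  have hP : 0 ≤ 11 * ((n : ℝ) + 1) ^ 2 * C := by positivity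
  refine ⟨Cf, 1 + (1 + 11 * ((n : ℝ) + 1) ^ 2 * C) * CS, hCf0, by
    have : 0 ≤ (1 + 11 * ((n : ℝ) + 1) ^ 2 * C) * CS := by positivity
    linarith, ?_⟩
  intro x Nf eps eta Ω e hh hi wc dt w O he b hN h0 h1 hK hw wt hZ
  have hη := x.η0
  have a1 : CS * x.η ≤ eta := by
    have : 0 ≤ 11 * ((n : ℝ) + 1) ^ 2 * C * (CS * x.η) := by positivity
    linarith
  have a2 : 11 * ((n : ℝ) + 1) ^ 2 * C * (CS * x.η) ≤ eta := by
    have : 0 ≤ CS * x.η := by positivity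
    linarith
  refine key x Ω Nf ⟨x.W, F.sW x⟩ Lam eps eta CW 0 e hh hi wc dt w O he b
    (fun z _ => (add_zero _).symm) h0 h1 (fun z _ => a1) (fun z hz => ?_) (fun z hz => ?_) hw hC wt
    hZ
  · have hm := H961.F.mu_ge (fun x : Ix n A T => x.c) x z
    have hN' := hN z hz
    have hM : 1 ≤ fN x z := by
      have := (x.ok.N_ge (2 * ff x.q x.d (mid z)))
      have := x.th.M1
      unfold fN
      linarith
    change 0 ≤ fN x z + (mu x.c.T : VV n → ℝ) z ∧ fN x z + (mu x.c.T : VV n → ℝ) z ≤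
      2 * ((Nf : VV n → ℝ) z + (mu x.c.T : VV n → ℝ) z)
    rw [hN']
    constructor <;> linarith
  · have h3 := sc.h1 x z hz
    have h4 := mul_le_mul_of_nonneg_left h3 hP
    refine le_trans (le_of_eq ?_) (h4.trans a2)
    ring

/-! ## The rows -/

/-- **Row X** (helper696): the frozen data exist on every cell which is not empty. -/
def RowX (n : ℕ) : Prop := ∀ A e : Cst → ℝ, NB_M₀ A → NB_M₀ e → (∀ q, 1 ≤ A q) →
  (∀ q, 0 < e q ∧ e q ≤ 1 / 2) → EvC fun q => ∀ d : Pk n, PkOk q d → ∀ p₀ : V n,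
    (Zk q d (A q) p₀).Nonempty → ∃ c : CD n, Fro q d (A q) p₀ c ∧ MN c ∧
      ∃ Nf : EP.Sm (VV n), (∀ z ∈ Zk q d (A q) p₀, (Nf : VV n → ℝ) z =
        deriv d.Φ (2 * ff q d (mid z))) ∧ c.Ok (Zk q d (A q) p₀) Nf (LamB c2B 3) (e q) ∧
        ∀ z ∈ Zk q d (A q) p₀, Cmp c.T Nf (d.E q) (d.m q) (d.N q) z

/-- **Row F**: the classes of the family; the constants depend on `n`, `A`, `q.ph`, `q.e₁` only. -/
def RowF (n : ℕ) : Prop := ∀ A : ℝ, 1 ≤ A → ∃ T : PhC → ℝ → Cst → ℝ → Prop,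
  (∀ ph e₁, FamC n A (T ph e₁)) ∧ ∀ η : Cst → ℝ, NB_ηc η → (∀ q, 0 < η q ∧ η q ≤ 1) →
    EvC fun q => T q.ph q.e₁ q (η q)

/-- The curved box of helper516 on the package. -/
def CBq (q : Cst) (d : Pk n) (Om : Set (VV n)) (eta c0 C : ℝ) : Prop :=
  CB d.sx d.sy univ Om (fun _ => 1) (fun _ => 0) (fun _ => 0) (d.W q) (d.eB q) (d.hB q) (d.fB q)
    (Mxf d.sx d.sy univ (fun _ => 1) (d.W q) (d.gB q))
    (F5t d.sx d.sy univ (fun _ => 1) (d.W q) (dB q d eta)) c0 C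

/-- Helper516's row. -/
def RowCB (n : ℕ) (Om : Cst → Pk n → Set (VV n)) : Prop := ∃ c0 C eta1 : Cst → ℝ,
  ((∀ q, 0 < c0 q) ∧ NB_ηc c0) ∧ ((∀ q, 0 ≤ C q) ∧ NB_ηc C) ∧
  ((∀ q, 0 < eta1 q) ∧ NB_ηc eta1) ∧ ∀ eta : Cst → ℝ,
    ((∀ q, 0 < eta q ∧ eta q ≤ eta1 q) ∧ NB_ηc eta) → EvC fun q => ∀ d : Pk n, PkOk q d →
      CBq q d (Om q d) (eta q) (c0 q) (C q)

theorem one_le_LamB : 1 ≤ LamB c2B 3 := by
  have : 0 ≤ c2B := by unfold c2B; positivity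
  unfold LamB
  linarith

/-- **The row from the rows.** -/
theorem rowCB (hn : 3 ≤ n) (hX : RowX n) (hF : RowF n) : RowCB n OB := by
  have hL := one_le_LamB
  have hCW : (1 : ℝ) ≤ 16 := by norm_num
  obtain ⟨A, hA1, hA⟩ := cb_zone' n hL hCW (hbC_nonneg n)
  obtain ⟨T, hT1, hT2⟩ := hF A hA1
  choose Cf K hCf hK key using fun ph e₁ => famK_of (Lam := LamB c2B 3) hn (hT1 ph e₁) hCW
  have h0 : ∀ ph e₁, 0 < eta0 n (LamB c2B 3) (Cf ph e₁) := fun ph e₁ => by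
    have h1 := H593.B.KK_nn n hL (hCf ph e₁)
    have h2 := H593.B.c0_pos n hL
    unfold eta0
    positivity
  have hc := cO_pos n hL hCW
  have hCO := CO_nn n (Lam := LamB c2B 3) (by norm_num : (0 : ℝ) ≤ 16)
  refine ⟨fun _ => cO n (LamB c2B 3) 16 / 2, fun _ => 2 * CO n (LamB c2B 3) 16,
    fun q => min (eta0 n (LamB c2B 3) (Cf q.ph q.e₁)) 1, ⟨fun _ => by positivity, fun _ => rfl⟩,
    ⟨fun _ => by positivity, fun _ => rfl⟩, ⟨fun q => lt_min (h0 _ _) one_pos, fun _ => rfl⟩,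
    fun eta ⟨he, hNe⟩ => ?_⟩
  -- the small numbers
  have hη : NB_ηc fun q => eta q / K q.ph q.e₁ := fun q => by
    have := hNe q
    simp only
    rw [this]
    rfl
  have hK0 : ∀ ph e₁, 0 < K ph e₁ := fun ph e₁ => one_pos.trans_le (hK ph e₁)
  have hη1 : ∀ q, 0 < eta q / K q.ph q.e₁ ∧ eta q / K q.ph q.e₁ ≤ 1 := fun q => by
    refine ⟨div_pos (he q).1 (hK0 _ _), ?_⟩
    rw [div_le_one (hK0 _ _)]
    exact ((he q).2.trans (min_le_right _ _)).trans (hK _ _)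
  have ep0 : 0 < eps0 n (LamB c2B 3) := H593.B.eps0_pos n hL
  have hx := hX (fun _ => A) (fun _ => min (eps0 n (LamB c2B 3)) (1 / 2)) (fun _ => rfl)
    (fun _ => rfl) (fun _ => hA1) fun _ => ⟨lt_min ep0 (by norm_num), min_le_right _ _⟩
  refine (((obf (by omega : 1 ≤ n)).and hx).and ((hT2 _ hη hη1).and ((evBC n).and
    ((EvC.litSm n).and (H238.C.EvC.loc n))))).mono ?_
  rintro q ⟨⟨ho, hx⟩, ht, hq, hs, hth, hte⟩ d h
  have O := ho d h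
  have S := hs d h
  have nm : ∀ z ∈ OB q d, 1 + d.m q z ≤ d.E q z ∧ 0 ≤ d.N q z := fun z hz => by
    obtain ⟨a1, a2, -, -⟩ := H867.Z.OB.nums hq h hz
    obtain ⟨N1, -, -, m1, -⟩ := H960.B1.nums hq h a1 a2
    have hE : 0 < d.E q z := Real.exp_pos _
    exact ⟨by linarith, by linarith⟩
  have e1 : eta q ≤ 1 := (he q).2.trans (min_le_right _ _)
  have wt : Wt univ (OB q d) (d.eB q) (d.hB q) (d.gB q) (d.fB q) (dB q d (eta q)) :=
    wt_pk S h (he q).1.le e1 (fun z hz => (nm z hz).1) fun z hz => (nm z hz).2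
  refine hA A le_rfl d.s₁ d.s₂ (OB q d) ⟨d.W q, O.sW⟩ (d.eB q) (d.hB q) (d.gB q) (d.fB q)
    (dB q d (eta q)) O.op wt O.ok O.ot (fun z _ => O.el₁ z) (fun z _ => O.el₂ z)
    (fun z _ => O.sb₁ z) (fun z _ => O.sb₂ z) O.hb fun p₀ hp => ?_
  obtain ⟨c, fr, mn, Nf, hNf, ok, cm⟩ := hx d h p₀ hp
  have kη := key q.ph q.e₁ ⟨q, d, p₀, c, eta q / K q.ph q.e₁, h, hth, hte, fr, (hη1 q).1,
    (hη1 q).2, ht⟩ Nf (min (eps0 n (LamB c2B 3)) (1 / 2)) (eta q) (OB q d) (d.eB q) (d.hB q)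
    (d.gB q) (d.fB q) (dB q d (eta q)) (wdT c) ok (min_le_left _ _) mn hNf (he q).1.le
    ((he q).2.trans (min_le_left _ _)) (le_of_eq (mul_div_cancel₀ _ (hK0 _ _).ne'))
    (fun z hz => wk_pk (wdT c) (cm z hz) (he q).1.le le_rfl) wt inter_subset_left
  exact kη

end Vale.Agent.P088.R2.H867.CbT
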