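import Vale.Agent.P088.R2.H867.Z.CbX
import Vale.Agent.P088.R2.H968.B1.Hqw
import Vale.Agent.P088.R2.H644.B1.In3
import Vale.Agent.P088.R2.H657.B1.Ixm
import Vale.Agent.P088.R2.H724.B1.H0
import Vale.Agent.P088.R2.H724.B1.Ax

/-!
# P088, zone B1: the classes of the family of all cells
-/

open MeasureTheory Set Filter
open scoped Topology ContDiff Matrix

noncomputable section

namespace Vale.Agent.P088.R2.H867.CbT

open Vale.Agent.P088.LR Vale.Agent.P088.HY
open Vale.Agent.P088.R2.H464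
open Vale.Agent.P088.R2.H464.Cu (mid)
open Vale.Agent.P088.R2.H464.B (Ge Hy Hm Hs Sc zr Hq)
open Vale.Agent.P088.R2.H961.F (CD Gf fe fr fs fd mu_ge)
open Vale.Agent.P088.R2.H31.EP
open Vale.Agent.P088.R2.H516.B (mu)
open Vale.Agent.P088.R2.H724.B1
open Vale.Agent.P088.R2.H644.B1 (TL Us Us_open Us_near sL_ix sLm_ix cv_ix m1_ix m2_ix hL_ix hLm_ix)
open Vale.Agent.P088.R2.H696.B1 (TB)
open Vale.Agent.P088.R2.H968.B1

variable {n : ℕ}

/-- The thresholds of the family. -/
structure TF (n : ℕ) (A : ℝ) (ph : PhC) (q : Cst) (η : ℝ) : Prop where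
  ph : q.ph = ph
  e0 : 0 < q.e₁
  nb : Nb n q A η
  tl : TL n q
  tb : TB n (fun _ => 1) q
  rn : n * (3 * A + 1) ≤ q.R / 2
  sw : ∀ d : Pk n, PkOk q d → ContDiff ℝ ∞ (d.W q)

section

variable {A : ℝ} {ph : PhC}

/-- **The one-slot classes on the family.** -/
theorem hq_ix (hn : 1 ≤ n) (hA : 0 ≤ A) (hZ : ∀ x : Ix n A (TF n A ph), IsOpen x.Z) :
    Hq (fun x : Ix n A (TF n A ph) => x.c) Ix.Z hZ (fun x => x.d.s₁) (fun x => x.d.s₂) xg Us
      Us_open (ft (fun x : Ix n A (TF n A ph) => x.c) fN) fδ xL xLm kp ax xF xS Ix.W := by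
  have M := H657.B1.mq_ix (n := n) (T := TF n A ph) (U := Us) hA fun x w hw j => Us_near hw j
  have hTL : ∀ q η, TF n A ph q η → TL n q := fun q η h => h.tl
  have hR : ∀ q η, TF n A ph q η → n * (3 * A + 1) ≤ q.R / 2 := fun q η h => h.rn
  have ht := fun (x : Ix n A (TF n A ph)) z (hz : z ∈ x.Z) => nb_ix x x.t.nb hz
  have r0 := fun (x : Ix n A (TF n A ph)) z => (r_pos (fun x : Ix n A (TF n A ph) => x.c) x z).le
  obtain ⟨Ca, hCa⟩ := ax_ak (T := TF n A ph) hA hR
  exact
    { rt := fun x z _ => rt_of (fN_pos x z).le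
      t1 := fun x z hz => t1_of (sz_ix x x.t.tb hz)
      d0 := fun x z _ => add_nonneg (M.k0 x) (r0 x z)
      d1 := fun x z hz => by
        have h1 := (ht x z hz).1
        have h2 := mu_ge (fun x : Ix n A (TF n A ph) => x.c) x z
        have h3 : 0 ≤ fδ x z := add_nonneg (M.k0 x) (r0 x z)
        have h4 : fδ x z * 1 ≤ fδ x z * (mu (cx x).T : VV n → ℝ) z :=
          mul_le_mul_of_nonneg_left h2 h3
        linarith [x.η1]
      rd := ⟨1, fun x z _ => by
        have := M.k0 x
        show H961.F.fr _ x z ≤ 1 * (kp x + H961.F.fr _ x z)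
        linarith⟩
      k0 := M.k0
      kd := ⟨1, fun x z _ => by
        have := r0 x z
        show kp x ≤ 1 * (kp x + H961.F.fr _ x z)
        linarith⟩
      a0 := ax_nn
      ad := ⟨|Ca|, fun x z hz => by
        have h1 := hCa x z hz
        have h2 : kp x * H961.F.fr cx x z ≤ fδ x z * H961.F.fr cx x z :=
          mul_le_mul_of_nonneg_right (by
            have := r0 x z
            show kp x ≤ kp x + H961.F.fr _ x z
            linarith) (r0 x z)
        have h3 : 0 ≤ kp x * H961.F.fr cx x z := mul_nonneg (M.k0 x) (r0 x z)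
        calc ax x ≤ Ca * (kp x * H961.F.fr cx x z) := h1
          _ ≤ |Ca| * (kp x * H961.F.fr cx x z) :=
            mul_le_mul_of_nonneg_right (le_abs_self _) h3
          _ ≤ _ := mul_le_mul_of_nonneg_left h2 (abs_nonneg _)⟩
      cv := cv_ix
      m1 := m1_ix hA
      m2 := m2_ix hA
      sL := sL_ix
      sLm := sLm_ix
      hL := hL_ix hTL hn
      hLm := hLm_ix hTL hn
      he := fun x z hz => xhe x hz
      s1 := M.s1 Us_open
      s2 := M.s2 Us_open
      sk := M.sk Us_open
      h1 := M.h1 Us_open (K := 3) (by norm_num)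
      h2 := M.h2 Us_open (K := 3) (by norm_num) ax_nn (by
        obtain ⟨C, hC⟩ := ax_hA (T := TF n A ph) hA hR hn
        exact ⟨C, fun x w hw => hC x w fun j => Us_near hw j⟩)
      hk := M.hk Us_open (K := 3) (by norm_num)
      cF := xcF
      cS := xcS fun x => x.t.e0
      hF := fun m _ => xhF (fun x => x.t.ph) (fun x => ⟨_, x.t.tb⟩) (fun x z hz => by
        have h1 := ert (fun x : Ix n A (TF n A ph) => x.c) fN x z
        have h2 := mu_ge (fun x : Ix n A (TF n A ph) => x.c) x z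
        rw [h1]
        show fN x z ≤ fN x z + _
        linarith) m
      hS := fun m _ => xhS (fun x => x.t.e0) m
      S0 := xS0
      S1 := xS1 fun x => x.t.e0
      eW := xeW
      eφ := xeφ }

/-- **The classes of the family**, from the flat tensors (`Hs`). -/
theorem famC (hn : 1 ≤ n) (hA : 0 ≤ A)
    (hs : ∀ hZ : ∀ x : Ix n A (TF n A ph), IsOpen x.Z,
      Hs (Gf (fun x : Ix n A (TF n A ph) => x.c) Ix.Z hZ)
        (fs (fun x : Ix n A (TF n A ph) => x.c) (fun x => x.d.s₁) fun x => x.d.s₂)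
        (fd (fun x : Ix n A (TF n A ph) => x.c) (fun x => x.d.s₁) fun x => x.d.s₂)) :
    FamC n A (TF n A ph) := by
  have hZ : ∀ x : Ix n A (TF n A ph), IsOpen x.Z := fun x => Z_op x x.t.tb
  have Q := hq_ix (ph := ph) hn hA hZ
  have M := H657.B1.mq_ix (n := n) (T := TF n A ph) (U := Us) hA fun x w hw j => Us_near hw j
  exact
    { op := hZ
      sW := fun x => x.t.sw x.d x.ok
      H := Q.hy
      H₀ := Hq_h0 Q
      hm := Hq_hm Q M.k1 (ax_ak hA fun q η h => h.rn)
      hs := hs hZ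
      sc := ⟨1, zero_le_one, by
        have h := sc_ix hZ fun q η h => h.nb
        have e : (fun (x : Ix n A (TF n A ph)) (_ : VV n) => 1 * x.η) = fun x _ => x.η := by
          funext x z; rw [one_mul]
        rw [e]
        exact h⟩ }

end

end Vale.Agent.P088.R2.H867.CbT
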