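import Vale.Agent.P088.R2.H867.Z.Ho2
import Vale.Agent.P088.R2.H932.EP.Pk4

/-!
# P088, stage 3, zone B1: the literal majorants

`τ`, `β`, `τi` are the variables of the cuts `co`, `eB`, `inf`, `η = ηc`.  `tt1`, `tt2` are the
majorants of the layers of `co` and `eB`, `TT1`, `TT2` are `1` on their supports.
-/

open Set Filter
open scoped Topology ContDiff Matrix

noncomputable section

namespace Vale.Agent.P088.R2.H867.Z

open Vale.Agent.P088.LR Vale.Agent.P088.HY Vale.Agent.P088.R2.H961.GW Vale.Agent.P088.R2.H464.Cu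
open Vale.Agent.P088.R2.H932.EP (JB ep diff_fd ev_diff fd_comp fd2_mul ex_ep ey_ep fd2_congr
  J1 jb_cmp cSt cSt_one j1_st wt)
open Vale.Agent.P088.R2.H867.EP (cs sn fac cs_zero cs_one cs_nn cs_le sn_zero fac_pair Stp)

variable {n : ℕ}

/-- The step of Mathlib. -/
abbrev St : ℝ → ℝ := Real.smoothTransition

section def_

/-- The majorant of the layer of `co`. -/
def tt1 (η : ℝ) (τ β τi : VV n → ℝ) (z : VV n) : ℝ :=
  St (4 / η * τ z + 1) * St (-4 * τ z + 5) * St (4 * β z + 1) * cs (τi z)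

/-- The majorant of the layer of `eB`. -/
def tt2 (τ β τi : VV n → ℝ) (z : VV n) : ℝ :=
  St (4 * β z + 1) * St (-4 * β z + 5) * St (-4 * τ z + 5) * cs (τi z)

def TT1 (η : ℝ) (τ β τi : VV n → ℝ) (z : VV n) : ℝ :=
  St (4 / η * τ z + 2) * St (-4 * τ z + 6) * St (4 * β z + 2) * cs (τi z)

def TT2 (τ β τi : VV n → ℝ) (z : VV n) : ℝ :=
  St (4 * β z + 2) * St (-4 * β z + 6) * St (-4 * τ z + 6) * cs (τi z)

/-- `√g`. -/
def Sg (En ρ : VV n → ℝ) (z : VV n) : ℝ := √(gB En ρ z)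

/-- The majorants of `|D χ|` and `h^{1/2} |D χ|`. -/
def psiB (A α η : ℝ) (τ β τi En ρ : VV n → ℝ) (z : VV n) : ℝ :=
  A * (α * tt1 η τ β τi z * Sg En ρ z + tt2 τ β τi z)

def omB (A α η : ℝ) (τ β τi : VV n → ℝ) (z : VV n) : ℝ :=
  A * (α * tt1 η τ β τi z + tt2 τ β τi z)

end def_

theorem St_pos {x : ℝ} (h : St x ≠ 0) : 0 < x := by
  by_contra hc
  exact h (Real.smoothTransition.zero_of_nonpos (not_lt.1 hc))

theorem St_one {x : ℝ} (h : 1 ≤ x) : St x = 1 := Real.smoothTransition.one_of_one_le h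

theorem St_nn (x : ℝ) : 0 ≤ St x := Real.smoothTransition.nonneg x

theorem St_le (x : ℝ) : St x ≤ 1 := Real.smoothTransition.le_one x

theorem p4 {a b c d : ℝ} (a0 : 0 ≤ a) (a1 : a ≤ 1) (b0 : 0 ≤ b) (b1 : b ≤ 1) (c0 : 0 ≤ c)
    (c1 : c ≤ 1) (d0 : 0 ≤ d) (d1 : d ≤ 1) : 0 ≤ a * b * c * d ∧ a * b * c * d ≤ 1 := by
  refine ⟨by positivity, ?_⟩
  have h1 : a * b ≤ 1 := mul_le_one₀ a1 b0 b1
  have h2 : a * b * c ≤ 1 := mul_le_one₀ h1 c0 c1
  exact mul_le_one₀ h2 d0 d1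

section vals

variable (η : ℝ) (τ β τi : VV n → ℝ) (z : VV n)

theorem tt1_01 : 0 ≤ tt1 η τ β τi z ∧ tt1 η τ β τi z ≤ 1 :=
  p4 (St_nn _) (St_le _) (St_nn _) (St_le _) (St_nn _) (St_le _) (cs_nn _) (cs_le _)

theorem tt2_01 : 0 ≤ tt2 τ β τi z ∧ tt2 τ β τi z ≤ 1 :=
  p4 (St_nn _) (St_le _) (St_nn _) (St_le _) (St_nn _) (St_le _) (cs_nn _) (cs_le _)

theorem TT1_01 : 0 ≤ TT1 η τ β τi z ∧ TT1 η τ β τi z ≤ 1 :=
  p4 (St_nn _) (St_le _) (St_nn _) (St_le _) (St_nn _) (St_le _) (cs_nn _) (cs_le _)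

theorem TT2_01 : 0 ≤ TT2 τ β τi z ∧ TT2 τ β τi z ≤ 1 :=
  p4 (St_nn _) (St_le _) (St_nn _) (St_le _) (St_nn _) (St_le _) (cs_nn _) (cs_le _)

variable {η τ β τi z}

theorem p4_ne {a b c d : ℝ} (h : a * b * c * d ≠ 0) : a ≠ 0 ∧ b ≠ 0 ∧ c ≠ 0 ∧ d ≠ 0 := by
  refine ⟨?_, ?_, ?_, ?_⟩ <;> rintro rfl <;> simp at h

/-- On the support of `tt1`. -/
theorem tt1_ne (h : tt1 η τ β τi z ≠ 0) :
    0 < 4 / η * τ z + 1 ∧ τ z < 5 / 4 ∧ -(1 / 4) < β z ∧ cs (τi z) ≠ 0 := by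
  obtain ⟨h1, h2, h3, h4⟩ := p4_ne h
  have := St_pos h2
  have := St_pos h3
  exact ⟨St_pos h1, by linarith, by linarith, h4⟩

/-- On the support of `tt2`. -/
theorem tt2_ne (h : tt2 τ β τi z ≠ 0) :
    -(1 / 4) < β z ∧ β z < 5 / 4 ∧ τ z < 5 / 4 ∧ cs (τi z) ≠ 0 := by
  obtain ⟨h1, h2, h3, h4⟩ := p4_ne h
  have := St_pos h1
  have := St_pos h2
  have := St_pos h3
  exact ⟨by linarith, by linarith, by linarith, h4⟩

theorem TT1_one (h1 : 0 ≤ 4 / η * τ z + 1) (h2 : τ z ≤ 5 / 4) (h3 : -(1 / 4) ≤ β z)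
    (h4 : cs (τi z) = 1) : TT1 η τ β τi z = 1 := by
  unfold TT1
  rw [St_one (by linarith), St_one (by linarith), St_one (by linarith), h4]
  norm_num

theorem TT2_one (h1 : -(1 / 4) ≤ β z) (h2 : β z ≤ 5 / 4) (h3 : τ z ≤ 5 / 4)
    (h4 : cs (τi z) = 1) : TT2 τ β τi z = 1 := by
  unfold TT2
  rw [St_one (by linarith), St_one (by linarith), St_one (by linarith), h4]
  norm_num

theorem tt1_one (hη : 0 < η) (h1 : 0 ≤ τ z) (h2 : τ z ≤ 1) (h3 : 0 ≤ β z)
    (h4 : cs (τi z) = 1) : tt1 η τ β τi z = 1 := by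
  have : 0 ≤ 4 / η * τ z := by positivity
  unfold tt1
  rw [St_one (by linarith), St_one (by linarith), St_one (by linarith), h4]
  norm_num

theorem tt2_one (h1 : 0 ≤ β z) (h2 : β z ≤ 1) (h3 : τ z ≤ 1)
    (h4 : cs (τi z) = 1) : tt2 τ β τi z = 1 := by
  unfold tt2
  rw [St_one (by linarith), St_one (by linarith), St_one (by linarith), h4]
  norm_num

end vals

/-! ## Derivatives -/

section der

variable {f g h : VV n → ℝ} {z v : VV n} {S a b a' b' : ℝ}

theorem TB.congr (h : TB S a b f z) (e : g =ᶠ[𝓝 z] f) : TB S a b g z := by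
  have e2 : ∀ v w, H867.Z.d2 g z v w = H867.Z.d2 f z v w := fun v w => fd2_congr e v w
  refine ⟨h.sm.congr_of_eventuallyEq e, fun i => ?_, fun i => ?_, fun i j => ?_, fun i j => ?_,
    fun i j => ?_, fun i j => ?_⟩
  · rw [e.fderiv_eq]; exact h.p i
  · rw [e.fderiv_eq]; exact h.q i
  · rw [e2]; exact h.pp i j
  · rw [e2]; exact h.pq i j
  · rw [e2]; exact h.qp i j
  · rw [e2]; exact h.qq i j

/-- A product with a factor which vanishes to second order. -/
theorem TB.flat_mul (hf : ContDiffAt ℝ 2 f z) (hg : ContDiffAt ℝ 2 g z) (h0 : f z = 0)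
    (h1 : ∀ v, fderiv ℝ f z v = 0) (h2 : ∀ v w, H867.Z.d2 f z v w = 0) :
    TB S 0 0 (fun y => f y * g y) z := by
  refine TB.flat (hf.mul hg) (fun v => ?_) fun v w => ?_
  · rw [H867.Z.fd_mul hf hg, h0, h1]; ring
  · rw [d2_mul hf hg, h0, h1, h1, h2]; ring

theorem st_fd (hf : DifferentiableAt ℝ f z) (k e : ℝ) :
    |fderiv ℝ (fun y => St (k * f y + e)) z v| ≤ cSt * (|k| * |fderiv ℝ f z v|) := by
  have h1 : DifferentiableAt ℝ (fun y => k * f y + e) z := (hf.const_mul k).add_const e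
  have h2 : HasDerivAt St (deriv St (k * f z + e)) (k * f z + e) :=
    (Real.smoothTransition.contDiff.differentiable (n := ∞) (by simp) _).hasDerivAt
  have h3 := fd_comp (f := fun y => k * f y + e) h1 h2 v
  rw [h3, abs_mul]
  have h4 : fderiv ℝ (fun y => k * f y + e) z v = k * fderiv ℝ f z v := by
    rw [fderiv_add_const, fderiv_const_mul hf]
    rfl
  rw [h4, abs_mul]
  exact mul_le_mul_of_nonneg_right (j1_st _).e1 (by positivity)

theorem st_fd0 (hf : DifferentiableAt ℝ f z) (k e : ℝ) (h0 : 1 ≤ k * f z + e) :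
    fderiv ℝ (fun y => St (k * f y + e)) z v = 0 := by
  have h1 : DifferentiableAt ℝ (fun y => k * f y + e) z := (hf.const_mul k).add_const e
  have h2 : HasDerivAt St (deriv St (k * f z + e)) (k * f z + e) :=
    (Real.smoothTransition.contDiff.differentiable (n := ∞) (by simp) _).hasDerivAt
  have h3 := fd_comp (f := fun y => k * f y + e) h1 h2 v
  have h4 : deriv St (k * f z + e) = 0 := by
    have := H932.EP.st_stp.vanish (j := 1) le_rfl (Or.inr h0)
    rwa [iteratedDeriv_one] at this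
  rw [h3, h4, zero_mul]

theorem st_df (hf : DifferentiableAt ℝ f z) (k e : ℝ) :
    DifferentiableAt ℝ (fun y => St (k * f y + e)) z :=
  DifferentiableAt.comp (g := St) z
    (Real.smoothTransition.contDiff.differentiable (n := ∞) (by simp) _)
    ((hf.const_mul k).add_const e)

theorem fd3 (hf : DifferentiableAt ℝ f z) (hg : DifferentiableAt ℝ g z)
    (hh : DifferentiableAt ℝ h z) (f1 : |f z| ≤ 1) (g1 : |g z| ≤ 1) (h1 : |h z| ≤ 1) :
    |fderiv ℝ (fun y => f y * g y * h y) z v| ≤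
      |fderiv ℝ f z v| + |fderiv ℝ g z v| + |fderiv ℝ h z v| := by
  have e : fderiv ℝ (fun y => f y * g y * h y) z v = f z * g z * fderiv ℝ h z v +
      h z * (f z * fderiv ℝ g z v + g z * fderiv ℝ f z v) := by
    rw [fderiv_fun_mul (c := fun y => f y * g y) (hf.mul hg) hh, fderiv_fun_mul hf hg]
    simp only [_root_.add_apply, _root_.smul_apply, smul_eq_mul]
  rw [e]
  have b1 : |f z * g z * fderiv ℝ h z v| ≤ |fderiv ℝ h z v| := by
    rw [abs_mul, abs_mul]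
    exact mul_le_of_le_one_left (abs_nonneg _) (mul_le_one₀ f1 (abs_nonneg _) g1)
  have b2 : |h z * (f z * fderiv ℝ g z v + g z * fderiv ℝ f z v)| ≤
      |fderiv ℝ g z v| + |fderiv ℝ f z v| := by
    rw [abs_mul]
    refine (mul_le_of_le_one_left (abs_nonneg _) h1).trans ?_
    refine (abs_add_le _ _).trans (add_le_add ?_ ?_)
    · rw [abs_mul]; exact mul_le_of_le_one_left (abs_nonneg _) f1
    · rw [abs_mul]; exact mul_le_of_le_one_left (abs_nonneg _) g1
  have := abs_add_le (f z * g z * fderiv ℝ h z v)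
    (h z * (f z * fderiv ℝ g z v + g z * fderiv ℝ f z v))
  linarith

theorem fd_min (h0 : ∀ y, 0 ≤ f y) (h : f z = 0) : fderiv ℝ f z v = 0 := by
  have : IsLocalMin f z := Eventually.of_forall fun y => by rw [h]; exact h0 y
  rw [this.fderiv_eq_zero]
  rfl

end der

/-! ## The data of a point of the core region -/

/-- The data at a point. -/
structure Gp (a η B : ℝ) (β τ τi u ρ χ : VV n → ℝ) (z : VV n) : Prop where
  a1 : 1 ≤ a
  η0 : 0 < η
  aη : a * η ≤ 1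
  B1 : 1 ≤ B
  ρ0 : 0 ≤ ρ z
  ρ1 : ρ z ≤ 1
  sρ : DifferentiableAt ℝ ρ z
  jβ : JB ep (fun _ => 1) β a a z
  sτ : ContDiffAt ℝ 2 τ z
  jτ : 0 < ρ z → JB ep (wt (ρ z)) τ (a * η) (a * η) z
  ju : JB ep (fun _ => 1) u a a z
  jρ : 0 < ρ z → JB ep (wt (ρ z)) ρ (a * ρ z) (a * ρ z) z
  m1 : -(1 / 4) ≤ 1 / η * τ z → 1 ≤ mB (fun w => Real.exp (u w)) ρ z
  ti : ∀ᶠ y in 𝓝 z, cs (τi y) = 1
  Fb : ∀ b t, J1 (fac b) B B t
  χe : χ =ᶠ[𝓝 z] fun y => fac true (β y) * fac false (τ y)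

namespace Gp

variable {a η B : ℝ} {β τ τi u ρ χ : VV n → ℝ} {z : VV n} (H : Gp a η B β τ τi u ρ χ z)
include H

theorem ti0 : cs (τi z) = 1 := H.ti.self_of_nhds

theorem mB0 : 0 ≤ mB (fun w => Real.exp (u w)) ρ z := by
  have := H.ρ0
  unfold mB
  have := Real.exp_pos (u z)
  positivity

theorem S2 : Sg (fun w => Real.exp (u w)) ρ z ^ 2 = gB (fun w => Real.exp (u w)) ρ z := by
  unfold Sg
  refine Real.sq_sqrt ?_
  have := H.mB0
  have := Real.exp_pos (u z)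
  unfold gB
  positivity

theorem g0 : 0 < gB (fun w => Real.exp (u w)) ρ z := by
  have := H.mB0
  have := Real.exp_pos (u z)
  unfold gB
  positivity

theorem S0 : 0 < Sg (fun w => Real.exp (u w)) ρ z := Real.sqrt_pos.2 H.g0

/-- `ρ^(-1/2) ≤ 2 S` where `m ≥ 1`. -/
theorem rS (hm : 1 ≤ mB (fun w => Real.exp (u w)) ρ z) : 0 < ρ z ∧ (√(ρ z))⁻¹ ≤ 2 * Sg (fun w => Real.exp (u w)) ρ z := by
  have hE := Real.exp_pos (u z)
  have hρ : 0 < ρ z := by
    rcases H.ρ0.lt_or_eq with h | h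
    · exact h
    · unfold mB at hm
      rw [← h] at hm
      norm_num at hm
  refine ⟨hρ, ?_⟩
  have hs : 0 < √(ρ z) := Real.sqrt_pos.2 hρ
  have h2 : ((√(ρ z))⁻¹) ^ 2 ≤ (2 * Sg (fun w => Real.exp (u w)) ρ z) ^ 2 := by
    rw [mul_pow, H.S2, inv_pow, Real.sq_sqrt hρ.le]
    unfold gB
    have hm' : mB (fun w => Real.exp (u w)) ρ z = Real.exp (u z) * (2 * ρ z) := rfl
    have hp : 0 < 1 + mB (fun w => Real.exp (u w)) ρ z := by linarith
    rw [inv_eq_one_div, ← mul_div_assoc, div_le_div_iff₀ hρ hp]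
    have : 1 + mB (fun w => Real.exp (u w)) ρ z ≤ 2 * mB (fun w => Real.exp (u w)) ρ z := by linarith
    calc 1 * (1 + mB (fun w => Real.exp (u w)) ρ z) ≤ 2 * mB (fun w => Real.exp (u w)) ρ z := by linarith
      _ = 2 ^ 2 * Real.exp (u z) * ρ z := by rw [hm']; ring
  exact (abs_le_of_sq_le_sq' h2 (by have := H.S0; positivity)).2

/-- The constant. -/
def c₁ (a B : ℝ) : ℝ := 42 * B ^ 2 * a ^ 2

/-- **The cut-off.** -/
theorem χb (hS : 1 ≤ Sg (fun w => Real.exp (u w)) ρ z) : TB (Sg (fun w => Real.exp (u w)) ρ z) (c₁ a B * (a * η * tt1 η τ β τi z))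
    (c₁ a B * tt2 τ β τi z) χ z := by
  have ha := H.a1
  have hη := H.η0
  have hB := H.B1
  have t1 := (tt1_01 η τ β τi z).1
  have t2 := (tt2_01 τ β τi z).1
  have c0 : 0 ≤ c₁ a B := by unfold c₁; positivity
  have n1 : 0 ≤ c₁ a B * (a * η * tt1 η τ β τi z) := by positivity
  have n2 : 0 ≤ c₁ a B * tt2 τ β τi z := by positivity
  have S0 : 0 ≤ Sg (fun w => Real.exp (u w)) ρ z := by linarith
  have fs := fun b => (fac_pair.stp b)
  have d1 : ∀ b t, t ≤ 0 ∨ 1 ≤ t → deriv (fac b) t = 0 := fun b t ht => by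
    have := (fs b).vanish (j := 1) le_rfl ht
    rwa [iteratedDeriv_one] at this
  have d2 : ∀ b t, t ≤ 0 ∨ 1 ≤ t → deriv (deriv (fac b)) t = 0 := fun b t ht => by
    have := (fs b).vanish (j := 2) (by norm_num) ht
    rwa [iteratedDeriv_succ, iteratedDeriv_one] at this
  have sβ : ContDiffAt ℝ 2 (fun y => fac true (β y)) z :=
    (contDiffAt_infty.1 (fs true).sm.contDiffAt 2).comp z H.jβ.sm
  have sτ : ContDiffAt ℝ 2 (fun y => fac false (τ y)) z :=
    (contDiffAt_infty.1 (fs false).sm.contDiffAt 2).comp z H.sτ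
  refine TB.congr ?_ H.χe
  rcases le_or_gt (β z) 0 with hβ | hβ
  · have k := H867.Z.flat_comp H.jβ.sm (fs true).sm (d1 true _ (Or.inl hβ)) (d2 true _ (Or.inl hβ))
    exact (TB.flat_mul sβ sτ (fac_pair.t0 _ hβ) k.2.1 k.2.2).mono S0 n1 n2
  rcases le_or_gt 1 (τ z) with hτ | hτ
  · have k := H867.Z.flat_comp H.sτ (fs false).sm (d1 false _ (Or.inr hτ)) (d2 false _ (Or.inr hτ))
    have k2 : TB (Sg (fun w => Real.exp (u w)) ρ z) 0 0 (fun y => fac false (τ y) * fac true (β y)) z :=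
      TB.flat_mul sτ sβ (fac_pair.f1 _ hτ) k.2.1 k.2.2
    refine (k2.congr (Eventually.of_forall fun y => mul_comm _ _)).mono S0 n1 n2
  -- the two factors
  have f1 : ∃ b₂, 0 ≤ b₂ ∧ b₂ ≤ 2 * B * a ^ 2 ∧ b₂ ≤ c₁ a B * tt2 τ β τi z ∧
      TB (Sg (fun w => Real.exp (u w)) ρ z) 0 b₂ (fun y => fac true (β y)) z := by
    rcases le_or_gt 1 (β z) with h1 | h1
    · exact ⟨0, le_rfl, by positivity, n2,
        TB.flat_comp H.jβ.sm (fs true).sm (d1 true _ (Or.inr h1)) (d2 true _ (Or.inr h1))⟩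
    · refine ⟨2 * B * a ^ 2, by positivity, le_rfl, ?_, ?_⟩
      · rw [tt2_one hβ.le h1.le hτ.le H.ti0, mul_one]
        unfold c₁
        have : B ≤ B ^ 2 := by nlinarith
        have := mul_le_mul_of_nonneg_right this (sq_nonneg a)
        nlinarith [mul_nonneg (sq_nonneg B) (sq_nonneg a)]
      · have j := jb_cmp H.jβ (H.Fb true (β z))
        have : a ≤ a ^ 2 := by nlinarith
        have h3 := mul_le_mul_of_nonneg_left this (by linarith : 0 ≤ B)
        exact TB.of_jb1 (j.mono (fun _ => zero_le_one) (by nlinarith) (by nlinarith))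
  have f2 : ∃ a₂, 0 ≤ a₂ ∧ a₂ * (1 + 4 * B * a ^ 2) ≤ c₁ a B * (a * η * tt1 η τ β τi z) ∧
      TB (Sg (fun w => Real.exp (u w)) ρ z) a₂ 0 (fun y => fac false (τ y)) z := by
    rcases le_or_gt (τ z) 0 with h1 | h1
    · exact ⟨0, le_rfl, by rw [zero_mul]; exact n1,
        TB.flat_comp H.sτ (fs false).sm (d1 false _ (Or.inl h1)) (d2 false _ (Or.inl h1))⟩
    · have hm := H.m1 (by
        have : 0 ≤ 1 / η * τ z := by positivity
        linarith)
      obtain ⟨r1, r2⟩ := H.rS hm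
      have aη0 : 0 ≤ a * η := by positivity
      refine ⟨4 * (2 * B * (a * η)), by positivity, ?_, ?_⟩
      · rw [tt1_one hη h1.le hτ.le hβ.le H.ti0, mul_one]
        unfold c₁
        have e1 : B ≤ B ^ 2 := by nlinarith
        have e2 : 1 ≤ a ^ 2 := one_le_pow₀ ha
        have e3 : B * 1 ≤ B ^ 2 * a ^ 2 := mul_le_mul e1 e2 zero_le_one (by positivity)
        have e4 : 4 * (2 * B * (a * η)) * (1 + 4 * B * a ^ 2) =
          (8 * B + 32 * (B ^ 2 * a ^ 2)) * (a * η) := by ring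
        rw [e4]
        refine mul_le_mul_of_nonneg_right ?_ aη0
        nlinarith [mul_nonneg (sq_nonneg B) (sq_nonneg a)]
      · have j := jb_cmp (H.jτ r1) (H.Fb false (τ z))
        have h3 : (a * η) ^ 2 ≤ a * η := by nlinarith [H.aη]
        have h4 := mul_le_mul_of_nonneg_left h3 (by linarith : 0 ≤ B)
        have h5 : 0 ≤ B * (a * η) := by positivity
        exact TB.of_jb (j.mono (H932.EP.wt_nonneg _) (a' := 2 * B * (a * η))
          (b' := 2 * B * (a * η)) (by linarith) (by linarith)) (by positivity) r2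
  obtain ⟨b₂, p1, p2, p3, p4⟩ := f1
  obtain ⟨a₂, q1, q2, q3⟩ := f2
  have m := p4.mul hS q3 ((fs true).abs_le _) ((fs false).abs_le _) le_rfl p1 q1 le_rfl
  refine m.mono S0 ?_ (by linarith)
  have : b₂ * a₂ ≤ 2 * B * a ^ 2 * a₂ := mul_le_mul_of_nonneg_right p2 q1
  nlinarith

/-! ### First derivatives -/

variable {v : VV n} {i : Fin n}

theorem dβ (hv : v = (Pi.single i 1, 0) ∨ v = (0, Pi.single i 1)) :
    |fderiv ℝ β z v| ≤ 3 / 2 * a := by
  have j : JB ep (wt 1) β a a z := by rw [H932.EP.wt_one]; exact H.jβ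
  have k := j.dxy one_pos le_rfl (by linarith [H.a1]) i
  rw [Real.sqrt_one, div_one] at k
  rcases hv with rfl | rfl
  · exact k.1
  · exact k.2.1

theorem du (hv : v = (Pi.single i 1, 0) ∨ v = (0, Pi.single i 1)) :
    |fderiv ℝ u z v| ≤ 3 / 2 * a := by
  have j : JB ep (wt 1) u a a z := by rw [H932.EP.wt_one]; exact H.ju
  have k := j.dxy one_pos le_rfl (by linarith [H.a1]) i
  rw [Real.sqrt_one, div_one] at k
  rcases hv with rfl | rfl
  · exact k.1
  · exact k.2.1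

theorem dτ (hv : v = (Pi.single i 1, 0) ∨ v = (0, Pi.single i 1)) (hm : 1 ≤ mB (fun w => Real.exp (u w)) ρ z) :
    |fderiv ℝ τ z v| ≤ 3 * (a * η) * Sg (fun w => Real.exp (u w)) ρ z := by
  obtain ⟨r1, r2⟩ := H.rS hm
  have h0 : 0 ≤ a * η := by have := H.a1; have := H.η0; positivity
  have k := (H.jτ r1).dxy r1 H.ρ1 h0 i
  have e : 3 / 2 * (a * η) / √(ρ z) ≤ 3 * (a * η) * Sg (fun w => Real.exp (u w)) ρ z := by
    rw [div_eq_mul_inv]
    have := mul_le_mul_of_nonneg_left r2 (by positivity : 0 ≤ 3 / 2 * (a * η))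
    linarith
  rcases hv with rfl | rfl
  · exact k.1.trans e
  · exact k.2.1.trans e

theorem dρ (hv : v = (Pi.single i 1, 0) ∨ v = (0, Pi.single i 1)) (h0 : 0 < ρ z) :
    |fderiv ℝ ρ z v| ≤ 3 / 2 * a * √(ρ z) := by
  have ha := H.a1
  have k := (H.jρ h0).dxy h0 H.ρ1 (by positivity) i
  have hs : 0 < √(ρ z) := Real.sqrt_pos.2 h0
  have e : 3 / 2 * (a * ρ z) / √(ρ z) ≤ 3 / 2 * a * √(ρ z) := by
    rw [div_le_iff₀ hs]
    have : √(ρ z) * √(ρ z) = ρ z := Real.mul_self_sqrt h0.le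
    nlinarith
  rcases hv with rfl | rfl
  · exact k.1.trans e
  · exact k.2.1.trans e

theorem dfu : DifferentiableAt ℝ u z := (ev_diff H.ju.sm).self_of_nhds

theorem dfβ : DifferentiableAt ℝ β z := (ev_diff H.jβ.sm).self_of_nhds

theorem dfτ : DifferentiableAt ℝ τ z := (ev_diff H.sτ).self_of_nhds

theorem gS : HasFDerivAt (Sg (fun w => Real.exp (u w)) ρ) ((1 / (2 * Sg (fun w => Real.exp (u w)) ρ z)) •
    (Real.exp (u z) • (-((1 + mB (fun w => Real.exp (u w)) ρ z) ^ 2)⁻¹ • (Real.exp (u z) • (2 : ℝ) • fderiv ℝ ρ z +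
      (2 * ρ z) • Real.exp (u z) • fderiv ℝ u z)) +
        (1 + mB (fun w => Real.exp (u w)) ρ z)⁻¹ • Real.exp (u z) • fderiv ℝ u z)) z := by
  have hE : HasFDerivAt (fun w => Real.exp (u w)) (Real.exp (u z) • fderiv ℝ u z) z := H.dfu.hasFDerivAt.exp
  have hr : HasFDerivAt (fun y => 2 * ρ y) ((2 : ℝ) • fderiv ℝ ρ z) z :=
    H.sρ.hasFDerivAt.const_mul 2
  have hm : HasFDerivAt (fun y => 1 + mB (fun w => Real.exp (u w)) ρ y) (Real.exp (u z) • (2 : ℝ) • fderiv ℝ ρ z +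
      (2 * ρ z) • Real.exp (u z) • fderiv ℝ u z) z := (hE.mul hr).const_add 1
  have hp : (1 + mB (fun w => Real.exp (u w)) ρ z) ≠ 0 := by have := H.mB0; positivity
  have hi : HasFDerivAt (fun y => (1 + mB (fun w => Real.exp (u w)) ρ y)⁻¹) (-((1 + mB (fun w => Real.exp (u w)) ρ z) ^ 2)⁻¹ •
      (Real.exp (u z) • (2 : ℝ) • fderiv ℝ ρ z + (2 * ρ z) • Real.exp (u z) • fderiv ℝ u z)) z :=
    (hasDerivAt_inv hp).comp_hasFDerivAt z hm
  have hg : HasFDerivAt (gB (fun w => Real.exp (u w)) ρ) (Real.exp (u z) • (-((1 + mB (fun w => Real.exp (u w)) ρ z) ^ 2)⁻¹ •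
      (Real.exp (u z) • (2 : ℝ) • fderiv ℝ ρ z + (2 * ρ z) • Real.exp (u z) • fderiv ℝ u z)) +
        (1 + mB (fun w => Real.exp (u w)) ρ z)⁻¹ • Real.exp (u z) • fderiv ℝ u z) z := by
    have e : gB (fun w => Real.exp (u w)) ρ = fun y => Real.exp (u y) * (1 + mB (fun w => Real.exp (u w)) ρ y)⁻¹ := by
      funext y; unfold gB; rw [div_eq_mul_inv]
    rw [e]
    exact hE.mul hi
  exact (Real.hasDerivAt_sqrt H.g0.ne').comp_hasFDerivAt z hg

theorem dS (hv : v = (Pi.single i 1, 0) ∨ v = (0, Pi.single i 1)) (hm : 1 ≤ mB (fun w => Real.exp (u w)) ρ z)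
    (hS : 1 ≤ Sg (fun w => Real.exp (u w)) ρ z) : |fderiv ℝ (Sg (fun w => Real.exp (u w)) ρ) z v| ≤ 3 * a * Sg (fun w => Real.exp (u w)) ρ z ^ 2 := by
  have ha := H.a1
  obtain ⟨r1, -⟩ := H.rS hm
  have h1 := H.du hv
  have h2 := H.dρ hv r1
  rw [H.gS.fderiv]
  simp only [_root_.add_apply, _root_.smul_apply, smul_eq_mul]
  have hE := Real.exp_pos (u z)
  have hm' : mB (fun w => Real.exp (u w)) ρ z = Real.exp (u z) * (2 * ρ z) := rfl
  have hS2 : Sg (fun w => Real.exp (u w)) ρ z ^ 2 = Real.exp (u z) / (1 + mB (fun w => Real.exp (u w)) ρ z) := H.S2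
  generalize fderiv ℝ u z v = x at *
  generalize fderiv ℝ ρ z v = y at *
  set s := Sg (fun w => Real.exp (u w)) ρ z
  set m := mB (fun w => Real.exp (u w)) ρ z
  set E := Real.exp (u z)
  have hp : 0 < 1 + m := by linarith
  have e1 : 1 / (2 * s) * (E * (-((1 + m) ^ 2)⁻¹ * (E * (2 * y) + 2 * ρ z * (E * x))) +
      (1 + m)⁻¹ * (E * x)) = E / (1 + m) * (1 / (2 * s)) * ((x - 2 * E * y) / (1 + m)) := by
    have e2 : 2 * ρ z * (E * x) = m * x := by rw [hm']; ring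
    rw [e2]
    field_simp
    ring
  rw [e1, ← hS2]
  have hs : 0 < s := by linarith
  have e3 : s ^ 2 * (1 / (2 * s)) * ((x - 2 * E * y) / (1 + m)) =
      s / 2 * ((x - 2 * E * y) / (1 + m)) := by field_simp
  rw [e3, abs_mul, abs_of_pos (by positivity : 0 < s / 2), abs_div, abs_of_pos hp]
  -- `E √ρ ≤ s (1 + m)`
  have k1 : E * √(ρ z) ≤ s * (1 + m) := by
    have hsq : (E * √(ρ z)) ^ 2 ≤ (s * (1 + m)) ^ 2 := by
      rw [mul_pow, mul_pow, Real.sq_sqrt r1.le, hS2]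
      have e4 : E / (1 + m) * (1 + m) ^ 2 = E * (1 + m) := by field_simp
      rw [e4]
      have : E * ρ z ≤ 1 + m := by rw [hm'] ; nlinarith [mul_nonneg hE.le r1.le]
      calc E ^ 2 * ρ z = E * (E * ρ z) := by ring
        _ ≤ E * (1 + m) := mul_le_mul_of_nonneg_left this hE.le
    exact (abs_le_of_sq_le_sq' hsq (by positivity)).2
  have k2 : |x - 2 * E * y| ≤ 3 / 2 * a + 3 * a * (s * (1 + m)) := by
    refine (abs_sub _ _).trans (add_le_add h1 ?_)
    rw [abs_mul, abs_of_pos (by positivity : 0 < 2 * E)]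
    have := mul_le_mul_of_nonneg_left h2 (by positivity : 0 ≤ 2 * E)
    have := mul_le_mul_of_nonneg_left k1 (by positivity : 0 ≤ 3 * a)
    linarith
  have k3 : |x - 2 * E * y| / (1 + m) ≤ 9 / 2 * a * s := by
    rw [div_le_iff₀ hp]
    refine k2.trans ?_
    have : 1 * 1 ≤ s * (1 + m) := mul_le_mul hS (by linarith) zero_le_one hs.le
    nlinarith
  calc s / 2 * (|x - 2 * E * y| / (1 + m)) ≤ s / 2 * (9 / 2 * a * s) :=
        mul_le_mul_of_nonneg_left k3 (by positivity)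
    _ ≤ 3 * a * s ^ 2 := by nlinarith [mul_nonneg (by linarith : 0 ≤ a) (sq_nonneg s)]

/-- `tt1` near the point. -/
theorem e1 : tt1 η τ β τi =ᶠ[𝓝 z]
    fun y => St (4 / η * τ y + 1) * St (-4 * τ y + 5) * St (4 * β y + 1) := by
  filter_upwards [H.ti] with y hy
  unfold tt1
  rw [hy, mul_one]

theorem e2 : tt2 τ β τi =ᶠ[𝓝 z]
    fun y => St (4 * β y + 1) * St (-4 * β y + 5) * St (-4 * τ y + 5) := by
  filter_upwards [H.ti] with y hy
  unfold tt2
  rw [hy, mul_one]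

omit H in
theorem sa (x : ℝ) : |St x| ≤ 1 := by
  rw [abs_of_nonneg (St_nn x)]; exact St_le x

theorem df1 : DifferentiableAt ℝ (tt1 η τ β τi) z :=
  (((st_df H.dfτ _ _).mul (st_df H.dfτ _ _)).mul (st_df H.dfβ _ _)).congr_of_eventuallyEq H.e1

theorem df2 : DifferentiableAt ℝ (tt2 τ β τi) z :=
  (((st_df H.dfβ _ _).mul (st_df H.dfβ _ _)).mul (st_df H.dfτ _ _)).congr_of_eventuallyEq H.e2

/-- The constant. -/
theorem d1 (hv : v = (Pi.single i 1, 0) ∨ v = (0, Pi.single i 1)) (hS : 1 ≤ Sg (fun w => Real.exp (u w)) ρ z)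
    (h1 : tt1 η τ β τi z ≠ 0) : |fderiv ℝ (tt1 η τ β τi) z v| ≤ 30 * cSt * a * Sg (fun w => Real.exp (u w)) ρ z := by
  have ha := H.a1
  have hη := H.η0
  have hc := cSt_one
  obtain ⟨n1, n2, n3, -⟩ := tt1_ne h1
  have hm := H.m1 (by
    have e : 4 / η * τ z = 4 * (1 / η * τ z) := by ring
    rw [e] at n1
    linarith)
  have b1 := H.dβ hv
  have b2 := H.dτ hv hm
  have hη1 : η ≤ 1 := by nlinarith [H.aη]
  rw [H.e1.fderiv_eq]
  refine (fd3 (st_df H.dfτ _ _) (st_df H.dfτ _ _) (st_df H.dfβ _ _) (sa _) (sa _) (sa _)).trans ?_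
  have k1 := st_fd (v := v) H.dfτ (4 / η) 1
  have k2 := st_fd (v := v) H.dfτ (-4) 5
  have k3 := st_fd (v := v) H.dfβ 4 1
  rw [abs_of_pos (by positivity : 0 < 4 / η)] at k1
  rw [abs_neg, abs_of_pos (by norm_num : (0 : ℝ) < 4)] at k2
  rw [abs_of_pos (by norm_num : (0 : ℝ) < 4)] at k3
  have c0 : 0 ≤ cSt := by linarith
  have m1 := mul_le_mul_of_nonneg_left b2 (by positivity : 0 ≤ cSt * (4 / η))
  have m2 := mul_le_mul_of_nonneg_left b2 (by positivity : 0 ≤ cSt * 4)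
  have m3 := mul_le_mul_of_nonneg_left b1 (by positivity : 0 ≤ cSt * 4)
  have e1 : cSt * (4 / η) * (3 * (a * η) * Sg (fun w => Real.exp (u w)) ρ z) = 12 * cSt * a * Sg (fun w => Real.exp (u w)) ρ z := by
    field_simp
    ring
  rw [e1] at m1
  have hS0 : 0 ≤ Sg (fun w => Real.exp (u w)) ρ z := by linarith
  have e2 : cSt * 4 * (3 * (a * η) * Sg (fun w => Real.exp (u w)) ρ z) ≤ 12 * cSt * a * Sg (fun w => Real.exp (u w)) ρ z := by
    have : a * η ≤ a * 1 := mul_le_mul_of_nonneg_left hη1 (by linarith)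
    have := mul_le_mul_of_nonneg_left this (by positivity : 0 ≤ 12 * cSt * Sg (fun w => Real.exp (u w)) ρ z)
    linarith
  have e3 : 6 * cSt * a ≤ 6 * cSt * a * Sg (fun w => Real.exp (u w)) ρ z :=
    le_mul_of_one_le_right (by positivity) hS
  linarith

theorem d2 (hv : v = (Pi.single i 1, 0) ∨ v = (0, Pi.single i 1)) (hS : 1 ≤ Sg (fun w => Real.exp (u w)) ρ z) :
    |fderiv ℝ (tt2 τ β τi) z v| ≤ 12 * cSt * a * TT2 τ β τi z +
      12 * cSt * (a * η) * Sg (fun w => Real.exp (u w)) ρ z * TT1 η τ β τi z := by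
  have ha := H.a1
  have hη := H.η0
  have hc := cSt_one
  have T1 := (TT1_01 η τ β τi z).1
  have T2 := (TT2_01 τ β τi z).1
  by_cases h1 : tt2 τ β τi z = 0
  · rw [fd_min (fun y => (tt2_01 τ β τi y).1) h1, abs_zero]
    positivity
  obtain ⟨n1, n2, n3, -⟩ := tt2_ne h1
  have b1 := H.dβ hv
  rw [H.e2.fderiv_eq, TT2_one n1.le n2.le n3.le H.ti0]
  refine (fd3 (st_df H.dfβ _ _) (st_df H.dfβ _ _) (st_df H.dfτ _ _) (sa _) (sa _) (sa _)).trans ?_
  have k2 := st_fd (v := v) H.dfβ (-4) 5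
  have k3 := st_fd (v := v) H.dfβ 4 1
  rw [abs_neg, abs_of_pos (by norm_num : (0 : ℝ) < 4)] at k2
  rw [abs_of_pos (by norm_num : (0 : ℝ) < 4)] at k3
  have c0 : 0 ≤ cSt := by linarith
  have m3 := mul_le_mul_of_nonneg_left b1 (by positivity : 0 ≤ cSt * 4)
  have k4 : |fderiv ℝ (fun y => St (-4 * τ y + 5)) z v| ≤
      12 * cSt * (a * η) * Sg (fun w => Real.exp (u w)) ρ z * TT1 η τ β τi z := by
    rcases le_or_gt (τ z) 1 with h2 | h2
    · rw [st_fd0 H.dfτ _ _ (by linarith), abs_zero]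
      positivity
    · have p : 0 ≤ 1 / η * τ z := by
        have : 0 ≤ τ z := by linarith
        positivity
      have hm := H.m1 (by linarith)
      have p4 : 4 / η * τ z = 4 * (1 / η * τ z) := by ring
      rw [TT1_one (by rw [p4]; linarith) n3.le n1.le H.ti0, mul_one]
      have b2 := H.dτ hv hm
      have k1 := st_fd (v := v) H.dfτ (-4) 5
      rw [abs_neg, abs_of_pos (by norm_num : (0 : ℝ) < 4)] at k1
      have m2 := mul_le_mul_of_nonneg_left b2 (by positivity : 0 ≤ cSt * 4)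
      linarith
  linarith

/-- **The derivatives of `ψ`.** -/
theorem ψd {A : ℝ} (hA : 0 ≤ A) (hv : v = (Pi.single i 1, 0) ∨ v = (0, Pi.single i 1))
    (hS : 1 ≤ Sg (fun w => Real.exp (u w)) ρ z) : |fderiv ℝ (psiB A (a * η) η τ β τi (fun w => Real.exp (u w)) ρ) z v| ≤
      50 * A * cSt * a * (a * η * TT1 η τ β τi z * Sg (fun w => Real.exp (u w)) ρ z ^ 2 + TT2 τ β τi z) := by
  have ha := H.a1
  have hη := H.η0
  have hc := cSt_one
  have T1 := (TT1_01 η τ β τi z).1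
  have T2 := (TT2_01 τ β τi z).1
  have c0 : 0 ≤ cSt := by linarith
  have t01 := tt1_01 η τ β τi z
  have hdS : DifferentiableAt ℝ (Sg (fun w => Real.exp (u w)) ρ) z := H.gS.differentiableAt
  have e0 : fderiv ℝ (psiB A (a * η) η τ β τi (fun w => Real.exp (u w)) ρ) z v =
      A * (a * η * (tt1 η τ β τi z * fderiv ℝ (Sg (fun w => Real.exp (u w)) ρ) z v +
        Sg (fun w => Real.exp (u w)) ρ z * fderiv ℝ (tt1 η τ β τi) z v) + fderiv ℝ (tt2 τ β τi) z v) := by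
    have f1 : DifferentiableAt ℝ (fun y => a * η * tt1 η τ β τi y) z := H.df1.const_mul _
    have f2 : DifferentiableAt ℝ (fun y => a * η * tt1 η τ β τi y * Sg (fun w => Real.exp (u w)) ρ y) z := f1.mul hdS
    have f3 : DifferentiableAt ℝ (fun y => a * η * tt1 η τ β τi y * Sg (fun w => Real.exp (u w)) ρ y + tt2 τ β τi y) z :=
      f2.add H.df2
    unfold psiB
    rw [fderiv_const_mul f3, fderiv_fun_add f2 H.df2, fderiv_fun_mul f1 hdS,
      fderiv_const_mul H.df1]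
    simp only [_root_.add_apply, _root_.smul_apply, smul_eq_mul]
    ring
  have hS0 : 0 ≤ Sg (fun w => Real.exp (u w)) ρ z := by linarith
  have k2 := H.d2 hv hS
  have k1 : |tt1 η τ β τi z * fderiv ℝ (Sg (fun w => Real.exp (u w)) ρ) z v +
        Sg (fun w => Real.exp (u w)) ρ z * fderiv ℝ (tt1 η τ β τi) z v| ≤
      33 * cSt * a * Sg (fun w => Real.exp (u w)) ρ z ^ 2 * TT1 η τ β τi z := by
    by_cases h1 : tt1 η τ β τi z = 0
    · rw [fd_min (fun y => (tt1_01 η τ β τi y).1) h1, h1, zero_mul, mul_zero, add_zero, abs_zero]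
      positivity
    · obtain ⟨n1, n2, n3, -⟩ := tt1_ne h1
      have hm := H.m1 (by
        have e : 4 / η * τ z = 4 * (1 / η * τ z) := by ring
        rw [e] at n1
        linarith)
      rw [TT1_one n1.le n2.le n3.le H.ti0, mul_one]
      have b1 := H.dS hv hm hS
      have b2 := H.d1 hv hS h1
      refine (abs_add_le _ _).trans ?_
      rw [abs_mul, abs_mul, abs_of_nonneg t01.1, abs_of_nonneg hS0]
      have m1 := mul_le_mul t01.2 b1 (abs_nonneg _) zero_le_one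
      have m2 := mul_le_mul_of_nonneg_left b2 hS0
      have m3 : 3 * a * Sg (fun w => Real.exp (u w)) ρ z ^ 2 ≤ 3 * cSt * a * Sg (fun w => Real.exp (u w)) ρ z ^ 2 := by
        have : 1 * (3 * a * Sg (fun w => Real.exp (u w)) ρ z ^ 2) ≤ cSt * (3 * a * Sg (fun w => Real.exp (u w)) ρ z ^ 2) :=
          mul_le_mul_of_nonneg_right hc (by positivity)
        linarith
      nlinarith
  rw [e0, abs_mul, abs_of_nonneg hA]
  have aη0 : 0 ≤ a * η := by positivity
  have k3 : |a * η * (tt1 η τ β τi z * fderiv ℝ (Sg (fun w => Real.exp (u w)) ρ) z v +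
        Sg (fun w => Real.exp (u w)) ρ z * fderiv ℝ (tt1 η τ β τi) z v) + fderiv ℝ (tt2 τ β τi) z v| ≤
      a * η * (33 * cSt * a * Sg (fun w => Real.exp (u w)) ρ z ^ 2 * TT1 η τ β τi z) +
        (12 * cSt * a * TT2 τ β τi z + 12 * cSt * (a * η) * Sg (fun w => Real.exp (u w)) ρ z * TT1 η τ β τi z) := by
    refine (abs_add_le _ _).trans (add_le_add ?_ k2)
    rw [abs_mul, abs_of_nonneg aη0]
    exact mul_le_mul_of_nonneg_left k1 aη0
  have k4 : 12 * cSt * (a * η) * Sg (fun w => Real.exp (u w)) ρ z * TT1 η τ β τi z ≤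
      12 * cSt * a * (a * η * TT1 η τ β τi z * Sg (fun w => Real.exp (u w)) ρ z ^ 2) := by
    have : 1 * Sg (fun w => Real.exp (u w)) ρ z ≤ a * Sg (fun w => Real.exp (u w)) ρ z ^ 2 :=
      mul_le_mul ha (by nlinarith) hS0 (by linarith)
    have := mul_le_mul_of_nonneg_left this
      (by positivity : 0 ≤ 12 * cSt * (a * η) * TT1 η τ β τi z)
    linarith
  have k5 : 0 ≤ cSt * a * (a * η * TT1 η τ β τi z * Sg (fun w => Real.exp (u w)) ρ z ^ 2) := by positivity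
  have k6 : 0 ≤ cSt * a * TT2 τ β τi z := by positivity
  calc A * _ ≤ A * (50 * (cSt * a * (a * η * TT1 η τ β τi z * Sg (fun w => Real.exp (u w)) ρ z ^ 2)) +
        50 * (cSt * a * TT2 τ β τi z)) := mul_le_mul_of_nonneg_left (by linarith) hA
    _ = _ := by ring

/-- **The derivatives of `om`.** -/
theorem od {A : ℝ} (hA : 0 ≤ A) (hv : v = (Pi.single i 1, 0) ∨ v = (0, Pi.single i 1))
    (hS : 1 ≤ Sg (fun w => Real.exp (u w)) ρ z) : |fderiv ℝ (omB A (a * η) η τ β τi) z v| ≤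
      50 * A * cSt * a * (a * η * TT1 η τ β τi z * Sg (fun w => Real.exp (u w)) ρ z + TT2 τ β τi z) := by
  have ha := H.a1
  have hη := H.η0
  have hc := cSt_one
  have T1 := (TT1_01 η τ β τi z).1
  have T2 := (TT2_01 τ β τi z).1
  have c0 : 0 ≤ cSt := by linarith
  have e0 : fderiv ℝ (omB A (a * η) η τ β τi) z v =
      A * (a * η * fderiv ℝ (tt1 η τ β τi) z v + fderiv ℝ (tt2 τ β τi) z v) := by
    have f1 : DifferentiableAt ℝ (fun y => a * η * tt1 η τ β τi y) z := H.df1.const_mul _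
    have f3 : DifferentiableAt ℝ (fun y => a * η * tt1 η τ β τi y + tt2 τ β τi y) z :=
      f1.add H.df2
    unfold omB
    rw [fderiv_const_mul f3, fderiv_fun_add f1 H.df2, fderiv_const_mul H.df1]
    simp only [_root_.add_apply, _root_.smul_apply, smul_eq_mul]
  have hS0 : 0 ≤ Sg (fun w => Real.exp (u w)) ρ z := by linarith
  have k2 := H.d2 hv hS
  have k1 : |fderiv ℝ (tt1 η τ β τi) z v| ≤ 30 * cSt * a * Sg (fun w => Real.exp (u w)) ρ z * TT1 η τ β τi z := by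
    by_cases h1 : tt1 η τ β τi z = 0
    · rw [fd_min (fun y => (tt1_01 η τ β τi y).1) h1, abs_zero]
      positivity
    · obtain ⟨n1, n2, n3, -⟩ := tt1_ne h1
      rw [TT1_one n1.le n2.le n3.le H.ti0, mul_one]
      exact H.d1 hv hS h1
  rw [e0, abs_mul, abs_of_nonneg hA]
  have aη0 : 0 ≤ a * η := by positivity
  have k3 : |a * η * fderiv ℝ (tt1 η τ β τi) z v + fderiv ℝ (tt2 τ β τi) z v| ≤
      a * η * (30 * cSt * a * Sg (fun w => Real.exp (u w)) ρ z * TT1 η τ β τi z) +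
        (12 * cSt * a * TT2 τ β τi z + 12 * cSt * (a * η) * Sg (fun w => Real.exp (u w)) ρ z * TT1 η τ β τi z) := by
    refine (abs_add_le _ _).trans (add_le_add ?_ k2)
    rw [abs_mul, abs_of_nonneg aη0]
    exact mul_le_mul_of_nonneg_left k1 aη0
  have k4 : 12 * cSt * (a * η) * Sg (fun w => Real.exp (u w)) ρ z * TT1 η τ β τi z ≤
      12 * cSt * a * (a * η * TT1 η τ β τi z * Sg (fun w => Real.exp (u w)) ρ z) := by
    have : 1 * Sg (fun w => Real.exp (u w)) ρ z ≤ a * Sg (fun w => Real.exp (u w)) ρ z := mul_le_mul_of_nonneg_right ha hS0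
    have := mul_le_mul_of_nonneg_left this
      (by positivity : 0 ≤ 12 * cSt * (a * η) * TT1 η τ β τi z)
    linarith
  have k5 : 0 ≤ cSt * a * (a * η * TT1 η τ β τi z * Sg (fun w => Real.exp (u w)) ρ z) := by positivity
  have k6 : 0 ≤ cSt * a * TT2 τ β τi z := by positivity
  calc A * _ ≤ A * (50 * (cSt * a * (a * η * TT1 η τ β τi z * Sg (fun w => Real.exp (u w)) ρ z)) +
        50 * (cSt * a * TT2 τ β τi z)) := mul_le_mul_of_nonneg_left (by linarith) hA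
    _ = _ := by ring

end Gp

end Vale.Agent.P088.R2.H867.Z
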