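import Vale.Agent.P088.R2.H867.Z.Ho4

/-!
# P088, stage 3, zone B1: the cut-off conditions on the package
-/

open Set Filter
open scoped Topology ContDiff Matrix

noncomputable section

namespace Vale.Agent.P088.R2.H867.Z

open Vale.Agent.P088.LR Vale.Agent.P088.HY Vale.Agent.P088.R2.H961.GW Vale.Agent.P088.R2.H464.Cu
open Vale.Agent.P088.R2.H31.EP
open Vale.Agent.P088.R2.H644 (Ch.Gr)
open Vale.Agent.P088.R2.H86.Z (El)
open Vale.Agent.P088.R2.H932.EP (NrC evNr cN cN_nb' tauR tauU m1x m1x_le m1x_pos m1x_d ep JB J1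
  Cd cC cV cQ cC_nn cV_nn cQ_nn dN cSt cSt_one cD_two wt Ow)
open Vale.Agent.P088.R2.H867.EP (Cut Zo path sd Near Off RS Inf fac cs sn cs_zero fac_pair tauM
  pr_side)

variable {n : ℕ} {q : Cst} {d : Pk n} {z : VV n}

/-- The bounds of the metrics and of the weight in the region. -/
structure HBz (d : Pk n) (q : Cst) (cW : ℝ) (z : VV n) : Prop where
  mt : Mt d.s₁ d.s₂ (Sg (d.E q) (rq (gi d.s₁)) z) z
  el₁ : El (sx d.s₁) z
  el₂ : El (sy d.s₂) z
  F₁ : (sx d.s₁).F (d.W q) z ≤ cW * (d.N q z ^ 2 + d.E q z * d.m q z)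
  F₂ : (sy d.s₂).F (d.W q) z ≤ cW * (d.N q z ^ 2 + d.E q z * d.m q z)
  Wp : ∀ i, |(sx d.s₁).D i (d.W q) z + (sy d.s₂).D i (d.W q) z| ≤ cW * (d.N q z + d.m q z)

theorem fac_J1 (b : Bool) (t : ℝ) : J1 (fac b) BF BF t := by
  have h1 := Fl_PB.bd .inf b 1 (by norm_num) t
  have h2 := Fl_PB.bd .inf b 2 le_rfl t
  have e : Fl .inf b = fac b := rfl
  rw [e] at h1 h2
  refine J1.of ((fac_pair.stp b).sm.contDiffAt.of_le (WithTop.coe_le_coe.2 le_top)) ?_ ?_
  · rwa [iteratedDeriv_one] at h1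
  · rwa [iteratedDeriv_succ, iteratedDeriv_one] at h2

theorem cQ_cC {D : ℝ} (hD : 0 ≤ D) : cQ n D ≤ cC n D := by
  have h1 := cQ_nn (n := n) hD
  have h2 : 0 < Real.log 2 := Real.log_pos (by norm_num)
  have h3 : 0 ≤ cQ n D * D + 2 * (cQ n D + cQ n D + D * cQ n D) +
    2 * ((cQ n D + cQ n D + D * cQ n D) ^ 2 + (cQ n D + (cQ n D ^ 2 + cQ n D) +
      ((D + D ^ 2) * cQ n D ^ 2 + D * cQ n D))) + 100 * (3 * cQ n D + cQ n D) +
    100 * ((cQ n D + cQ n D) ^ 2 + (cQ n D + (cQ n D ^ 2 + cQ n D)) + 2 * (cQ n D ^ 2 + cQ n D) +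
      2 * (2 * cQ n D) * (3 * cQ n D + cQ n D) / Real.log 2) := by positivity
  unfold cC
  linarith

namespace BC

variable (hq : BC n q) (h : PkOk q d) (hz : GB d q z)
include hq h hz

/-- The local data. -/
theorem cd : Cd (dN q) (Ow n q.σ q.R) (gi d.s₁) d.l (d.μc q) (d.u q) z := by
  have hR := hq.nr.R0
  have h1 := (hq.r2_le h hz).2
  have h2 := hq.up h hz
  have h3 := abs_le.1 (u0u h z)
  have e3 : d.uta q = 2 * d.l₀ q + 45 / 10 * q.R := rfl
  exact (hq.nr.cd.cd h (by linarith) (by linarith)).monoD hq.nr.dN_D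

theorem jβ : JB ep (fun _ => 1) (d.cv q .eB) (cN n q) (cN n q) z := by
  have hc := hq.cd h hz
  have hD := hq.nr.dN_ge
  have hD0 : 0 ≤ dN q := by linarith
  have hu := hq.up h hz
  have hC := hq.nr.cV_le (n := n)
  have c1 := hq.nr.Ct0 1
  have c2 := hq.nr.Ct0 2
  have c3 := cD_two
  have c4 := cSt_one
  have c5 := cXi_nonneg
  have l2 : (0.6931471803 : ℝ) < Real.log 2 := Real.log_two_gt_d9
  have hl2 : 0 < Real.log 2 := by linarith
  have hw : 1 / Real.log 2 ≤ dN q := by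
    rw [div_le_iff₀ hl2]
    nlinarith
  have x1 : 0 ≤ 3 * cSt * q.ph.Ct 1 := by positivity
  have x2 : 0 ≤ 8 * cSt ^ 2 := by positivity
  have x3 : 0 ≤ 2 * (1 + cXi) ^ 2 + (1 + cXi) := by positivity
  have j := hq.nr.j1_VB h hu
  have j1 := j.e1.trans (by unfold dN; linarith : (9 : ℝ) ≤ dN q)
  have j2 := j.e2.trans (by unfold dN; linarith : 13 + 8 * q.ph.Ct 1 ≤ dN q)
  exact (hc.tauV1 (u₀ := 0) (w₀ := Real.log 2) hD0 hl2 hw j.sm j1 j2).mono
    (fun _ => zero_le_one) hC hC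

theorem jτ (hp : 0 < rq (gi d.s₁) z) : JB ep (wt (rq (gi d.s₁) z)) (d.cv q .co)
    (cN n q * q.ηc) (cN n q * q.ηc) z := by
  have hc := hq.cd h hz
  have hD := hq.nr.dN_ge
  have hD0 : 0 ≤ dN q := by linarith
  have hs := hq.nr.sm d h
  have hC := hq.nr.cC_le (n := n)
  have hcm : 0 ≤ q.σ / (q.CB * q.R) := by
    have h3 := hq.nr.CB1
    have h4 := hq.nr.R0
    have h5 := hq.nr.cd.inf.σ0
    positivity
  have m := m1x_d hcm cXi_nonneg (d.ξ_is q) (d.u q z)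
  have m0 := hs.cp.M₁p (d.u q z)
  have hη := hq.nr.η0
  have c1 := hq.nr.Ct0 1
  have c2 := hq.nr.Ct0 2
  have c3 := cD_two
  have c4 := cSt_one
  have c5 := cXi_nonneg
  have x1 : 0 ≤ 3 * cSt * q.ph.Ct 1 := by positivity
  have x2 : 0 ≤ 8 * cSt ^ 2 := by positivity
  have x3 : 0 ≤ 2 * (1 + cXi) ^ 2 := by positivity
  have d1 : 1 + cXi ≤ dN q := by unfold dN; linarith
  have d2 : 2 * (1 + cXi) ^ 2 + (1 + cXi) ≤ dN q := by unfold dN; linarith
  have e := hc.tauM hD0 hs.cp.Λ hp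
    (hs.cp.M₁s.contDiffAt.of_le (WithTop.coe_le_coe.2 le_top)) m0
    (m.1.trans (mul_le_mul_of_nonneg_right d1 m0.le))
    (m.2.trans (mul_le_mul_of_nonneg_right d2 m0.le))
  have e2 : cC n (dN q) / Real.log q.Λ = cC n (dN q) * q.ηc := by
    rw [logΛ]; field_simp
  have e3 : (d.cp q).Λ = q.Λ := rfl
  rw [e3, e2] at e
  have e4 := mul_le_mul_of_nonneg_right hC hη.le
  exact e.mono (H932.EP.wt_nonneg _) e4 e4

/-- **The data of the point.** -/
theorem gp : Gp (cN n q) q.ηc BF (d.cv q .eB) (d.cv q .co) (d.cv q .inf) (d.u q) (rq (gi d.s₁))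
    (d.ch q .zB) z where
  a1 := hq.cN1
  η0 := hq.nr.η0
  aη := hq.aη
  B1 := Fl_PB.one
  ρ0 := (hq.nr.rb d h z).1
  ρ1 := (hq.cd h hz).ρ1
  sρ := ((hq.nr.sm d h).rq.differentiable (by simp)) z
  jβ := hq.jβ h hz
  sτ := ((hq.nr.sm d h).cv .co).contDiffAt.of_le (WithTop.coe_le_coe.2 le_top)
  jτ hp := hq.jτ h hz hp
  ju := by
    have hD := hq.nr.dN_ge
    have h1 := (cQ_cC (n := n) (by linarith : 0 ≤ dN q)).trans hq.nr.cC_le
    exact ((hq.cd h hz).ju1 (by linarith)).mono (fun _ => zero_le_one) h1 h1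
  jρ hp := by
    have hD := hq.nr.dN_ge
    have h1 := (cQ_cC (n := n) (by linarith : 0 ≤ dN q)).trans hq.nr.cC_le
    have h2 := mul_le_mul_of_nonneg_right h1 hp.le
    exact ((hq.cd h hz).jr (by linarith) hp).mono (H932.EP.wt_nonneg _) h2 h2
  m1 hx := by
    have hη := hq.nr.η0
    have m0 := hq.m0 h z
    have mp := hq.M1p (d := d) (d.u q z)
    have mg := hq.M1ge h hz
    rw [co_eq] at hx
    have e : 1 / q.ηc * ((Real.log (1 + d.m q z / d.m₁ q (d.u q z)) - Real.log 2) / (1 / q.ηc)) =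
        Real.log (1 + d.m q z / d.m₁ q (d.u q z)) - Real.log 2 := by field_simp
    rw [e] at hx
    have h1 : Real.log 2 - 1 / 4 ≤ Real.log (1 + d.m q z / d.m₁ q (d.u q z)) := by linarith
    have h0 : 0 ≤ d.m q z / d.m₁ q (d.u q z) := by positivity
    have h2 : Real.exp (Real.log 2 - 1 / 4) ≤ 1 + d.m q z / d.m₁ q (d.u q z) := by
      rw [← Real.exp_log (by linarith : 0 < 1 + d.m q z / d.m₁ q (d.u q z))]
      exact Real.exp_le_exp.2 h1
    have h3 : 3 / 2 ≤ Real.exp (Real.log 2 - 1 / 4) := by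
      rw [Real.exp_sub, Real.exp_log (by norm_num), le_div_iff₀ (Real.exp_pos _)]
      have h4 : Real.exp (1 / 4) ≤ 4 / 3 := by
        have h5 := Real.add_one_le_exp (-(1 / 4) : ℝ)
        rw [Real.exp_neg] at h5
        have h6 : (3 / 4 : ℝ) ≤ (Real.exp (1 / 4))⁻¹ := by linarith
        rw [le_inv_comm₀ (by norm_num) (Real.exp_pos _)] at h6
        linarith
      linarith
    have h4 : 1 / 2 ≤ d.m q z / d.m₁ q (d.u q z) := by linarith
    rw [le_div_iff₀ mp] at h4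
    have e5 : mB (fun w => Real.exp (d.u q w)) (rq (gi d.s₁)) z = d.m q z := rfl
    rw [e5]
    linarith
  ti := by
    filter_upwards [hq.ev h hz] with y hy
    exact cs_zero (hq.inf0 h hy).le
  Fb := fac_J1
  χe := by
    filter_upwards [hq.ev h hz] with y hy
    exact hq.ch_eq h hy

/-- The numbers of the point. -/
theorem nr0 : Nr0 (d.E q z) (d.N q z) (d.m q z) (Sg (d.E q) (rq (gi d.s₁)) z) := by
  obtain ⟨h1, h2, h3, -⟩ := hq.num h hz
  have m0 := hq.m0 h z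
  exact ⟨m0, h1, h2, by linarith, Real.sqrt_nonneg _, (hq.gp h hz).S2⟩

theorem sc : Sc (d.E q z) (d.N q z) (d.m q z) (Sg (d.E q) (rq (gi d.s₁)) z) (q.αB n)
    (tt1 q.ηc (d.cv q .co) (d.cv q .eB) (d.cv q .inf) z)
    (tt2 (d.cv q .co) (d.cv q .eB) (d.cv q .inf) z) (d.T1B q z) (d.T2B q z) := by
  have hc := hq.cN1
  have hη := hq.nr.η0
  have a1 := tt1_01 q.ηc (d.cv q .co) (d.cv q .eB) (d.cv q .inf) z
  have a2 := tt2_01 (d.cv q .co) (d.cv q .eB) (d.cv q .inf) z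
  have ti := (hq.gp h hz).ti0
  refine ⟨hq.nr0 h hz, by unfold Cst.αB; positivity, hq.aη, a1.1, ?_, (d.T1B_01 q z).2, a2.1, ?_,
    (d.T2B_01 q z).2⟩
  · by_cases h0 : tt1 q.ηc (d.cv q .co) (d.cv q .eB) (d.cv q .inf) z = 0
    · rw [h0]; exact (d.T1B_01 q z).1
    · obtain ⟨n1, n2, n3, -⟩ := tt1_ne h0
      have : d.T1B q z = 1 := TT1_one n1.le n2.le n3.le ti
      rw [this]; exact a1.2
  · by_cases h0 : tt2 (d.cv q .co) (d.cv q .eB) (d.cv q .inf) z = 0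
    · rw [h0]; exact (d.T2B_01 q z).1
    · obtain ⟨n1, n2, n3, -⟩ := tt2_ne h0
      have : d.T2B q z = 1 := TT2_one n1.le n2.le n3.le ti
      rw [this]; exact a2.2

theorem hp {cW : ℝ} (h0 : 0 ≤ cW) (H : HBz d q cW z) :
    Hp d.s₁ d.s₂ (d.W q) (d.ch q .zB) (d.psiB q) (d.omB q) (d.E q) (rq (gi d.s₁)) (d.N q)
      (d.T1B q) (d.T2B q) (q.c1B n) (q.c2B n) cW (q.AB n) (q.αB n)
      (tt1 q.ηc (d.cv q .co) (d.cv q .eB) (d.cv q .inf) z)
      (tt2 (d.cv q .co) (d.cv q .eB) (d.cv q .inf) z) (Sg (d.E q) (rq (gi d.s₁)) z) z := by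
  have G := hq.gp h hz
  have S := hq.sc h hz
  have hc := hq.cN1
  have hB := Fl_PB.one
  have hs := cSt_one
  have hn : (0 : ℝ) ≤ n := Nat.cast_nonneg n
  have c10 : 0 ≤ q.c1B n := by
    unfold Cst.c1B Gp.c₁; positivity
  have A0 : 0 ≤ q.AB n := by unfold Cst.AB; positivity
  have cA : q.c1B n ≤ q.AB n := by
    unfold Cst.AB
    have : 1 ≤ 4 * ((n : ℝ) + 1) ^ 2 := by nlinarith
    exact le_mul_of_one_le_left c10 this
  have cc : q.c1B n ≤ q.c2B n := by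
    unfold Cst.c2B
    have h1 : 1 ≤ 50 * cSt * cN n q := by
      have : 1 * 1 ≤ cSt * cN n q := mul_le_mul hs hc zero_le_one (by linarith)
      linarith
    have h2 : q.AB n * 1 ≤ q.AB n * (50 * cSt * cN n q) := mul_le_mul_of_nonneg_left h1 A0
    linarith
  exact
    { sc := S
      mt := H.mt
      el₁ := H.el₁
      el₂ := H.el₂
      c10 := c10
      cc := cc
      W0 := h0
      A1 := le_rfl
      χb := G.χb S.nr.S1
      ψe := by
        show q.AB n * _ = _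
        rfl
      oe := rfl
      ψd := fun i => by
        rw [Dx1, Dy1]
        exact ⟨G.ψd A0 (Or.inl rfl) S.nr.S1, G.ψd A0 (Or.inr rfl) S.nr.S1⟩
      od := fun i => by
        rw [Dx1, Dy1]
        exact ⟨G.od A0 (Or.inl rfl) S.nr.S1, G.od A0 (Or.inr rfl) S.nr.S1⟩
      F₁ := H.F₁
      F₂ := H.F₂
      Wp := H.Wp }

end BC

end Vale.Agent.P088.R2.H867.Z
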