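import Vale.Agent.P088.R2.H960.B1.NmP
import Vale.Agent.P088.R2.H858.B1.HBn
import Vale.Agent.P088.R2.H724.B1.Fam
import Vale.Agent.P088.R2.H696.B1.Pt
import Vale.Agent.P088.R2.H932.EP.Hb2
import Vale.Agent.P088.R2.H593.B.Inv
import Vale.Agent.P088.R2.H281.EP.Bas

/-!
# P088, zone B1: the hypotheses of the sum over the cells on the region `OB`

Everything which `cb_zone'` (helper676) needs on the package except the weights `Wt` and the cells:
ellipticity, `Sb2`, the slots, smoothness of the weight, and the Hessian form `HB` (helper858) with a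
constant depending on `n` only.
-/

open Set Filter
open scoped Topology ContDiff Matrix

noncomputable section

namespace Vale.Agent.P088.R2.H867.Z

open Vale.Agent.P088.LR Vale.Agent.P088.HY Vale.Agent.P088.R2.H464.Cu
open Vale.Agent.P088.R2.H31.EP
open Vale.Agent.P088.R2.H86.Z (El)
open Vale.Agent.P088.R2.H606.EP (Lm Loc)
open Vale.Agent.P088.R2.H858.B1 (Sb2 HB hbC hb_pk Sb_x Sb_y)
open Vale.Agent.P088.R2.H724.B1 (OB)

variable {n : ℕ} {q : Cst} {d : Pk n} {z : VV n}

/-- The numbers in the region `OB`. -/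
theorem OB.nums (hq : BC n q) (h : PkOk q d) (hz : z ∈ OB q d) :
    13 / 5 * Real.log (d.N q z) - 7 / 10 ≤ d.u q z ∧
      d.m q z ≤ 2 * Real.exp (3 / 2 / q.ηc) * d.m₁ q (d.u q z) ∧ 60 ≤ d.u q z ∧
      d.r2 z ≤ 4 * q.c₀ ^ 2 := by
  have h1 := H960.B1.OB.a1 hq h hz.2.2.1
  have h2 := H960.B1.OB.a2 hq hz.2.2.2
  have hη := hq.nr.η0
  have hη2 : 0 < 1 / q.ηc := by positivity
  have l0 := hq.lN h z
  have e2 : 2 / q.ηc = 2 * (1 / q.ηc) := by ring
  have e32 : 3 / 2 / q.ηc = 3 / 2 * (1 / q.ηc) := by ring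
  have ha := abs_nonneg (Real.log q.c₀)
  have hb := abs_nonneg (Real.log q.aC)
  unfold thB at l0
  rw [e2] at l0
  have hu : 60 ≤ d.u q z := by linarith
  refine ⟨h1, h2, hu, ?_⟩
  have hm1 := hq.M1le (d := d) (d.u q z)
  have hc := hq.c0
  have k1 : d.m q z ≤ 2 * Real.exp (3 / 2 / q.ηc + 26 / 100 * d.u q z) := by
    rw [Real.exp_add]
    refine h2.trans ?_
    have := mul_le_mul_of_nonneg_left hm1 (by positivity : 0 ≤ 2 * Real.exp (3 / 2 / q.ηc))
    linarith
  have k2 : d.r2 z = d.m q z * Real.exp (-d.u q z) := by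
    change d.r2 z = Real.exp (d.u q z) * d.r2 z * Real.exp (-d.u q z)
    rw [mul_comm (Real.exp (d.u q z)), mul_assoc, ← Real.exp_add, add_neg_cancel, Real.exp_zero,
      mul_one]
  have k3 : d.r2 z ≤ 2 * Real.exp (3 / 2 / q.ηc - 74 / 100 * d.u q z) := by
    rw [k2]
    have h3 := mul_le_mul_of_nonneg_right k1 (Real.exp_pos (-d.u q z)).le
    refine h3.trans (le_of_eq ?_)
    rw [mul_assoc, ← Real.exp_add]
    congr 2
    ring
  have k4 : Real.exp (3 / 2 / q.ηc - 74 / 100 * d.u q z) ≤ q.c₀ ^ 2 := by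
    have h4 : Real.exp (2 * Real.log q.c₀) = q.c₀ ^ 2 := by
      rw [← Real.exp_log hc, ← Real.exp_nat_mul, Real.log_exp]
      norm_num
    rw [← h4]
    refine Real.exp_le_exp.2 ?_
    have h5 := neg_abs_le (Real.log q.c₀)
    rw [e32]
    nlinarith
  have := sq_nonneg q.c₀
  linarith

/-- `Loc`, `N ≤ E`, `K ≤ E`, `1 ≤ E`. -/
theorem OB.loc {e : Cst → ℝ} (hq : BC n q) (m : Lm n q) (T : H696.B1.TB n e q) (h : PkOk q d)
    (hz : z ∈ OB q d) : Loc q d z ∧ |deriv d.Φ (d.u q z)| ≤ d.E q z ∧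
      |deriv (deriv d.Φ) (d.u q z)| ≤ d.E q z ∧ 1 ≤ d.E q z := by
  obtain ⟨h1, h2, hu, hr⟩ := OB.nums hq h hz
  obtain ⟨N1, -, n2, m1, -⟩ := H960.B1.nums hq h h1 h2
  have hz' : z ∈ H696.B1.OB q d := hz
  have ta := (H696.B1.nuB h T hz').ta
  have m0 := hq.m0 h z
  have eN : d.N q z = deriv d.Φ (d.u q z) := rfl
  have hN0 : 0 ≤ deriv d.Φ (d.u q z) := by rw [← eN]; linarith
  have hK0 := (H238.C.K_pos h (d.u q z)).le
  have hK := h.top.k1 (d.u q z) ta
  rw [eN] at N1 n2
  refine ⟨H606.EP.loc h m hr (by linarith) hz.2.1.le, ?_, ?_, by linarith⟩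
  · rw [abs_of_nonneg hN0]
    nlinarith
  · rw [abs_of_nonneg hK0]
    refine hK.trans ?_
    nlinarith

/-- All hypotheses of `cb_zone'` on the package except `Wt` and the cells. -/
structure ObF (n : ℕ) (q : Cst) (d : Pk n) : Prop where
  op : IsOpen (OB q d)
  sW : ContDiff ℝ ∞ (d.W q)
  ok : d.sx.Ok univ fun _ => 1
  ot : d.sy.Ok univ fun _ => 1
  el₁ : ∀ z, El d.sx z
  el₂ : ∀ z, El d.sy z
  sb₁ : ∀ z, Sb2 d.sx z
  sb₂ : ∀ z, Sb2 d.sy z
  hb : ∀ z ∈ OB q d, HB d.sx d.sy (d.W q) (d.eB q) (d.fB q) (hbC n) z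

/-- **The hypotheses hold.** -/
theorem obf (hn : 1 ≤ n) : EvC fun q => ∀ d : Pk n, PkOk q d → ObF n q d := by
  refine (((evBC n).and (H606.EP.evLm hn)).and ((H696.B1.TB.ev n (e := fun _ => 1) (fun _ => rfl)
    (EvC.of fun _ => ⟨one_pos, le_rfl⟩)).and ((H281.EP.rowBas n).and
      (H932.EP.evHb n)))).mono ?_
  rintro q ⟨⟨hq, m⟩, T, hB, hb⟩ d h
  have B := hB d h
  have L := fun z hz => OB.loc (z := z) hq m T h hz
  exact
    { op := H696.B1.isOpen_OB h T
      sW := B.W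
      ok := H593.B.okx' h.rg.sm₁ h.rg.sm₂ (fun x i j => by
        have := B.y₁ x
        exact (this.apply i j).symm) (fun x i j => by
        have := B.y₂ x
        exact (this.apply i j).symm) isOpen_univ
      ot := H593.B.oky' h.rg.sm₁ h.rg.sm₂ (fun x i j => by
        have := B.y₁ x
        exact (this.apply i j).symm) (fun x i j => by
        have := B.y₂ x
        exact (this.apply i j).symm) isOpen_univ
      el₁ := fun z => hb.cd.elx h z
      el₂ := fun z => hb.cd.ely h z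
      sb₁ := fun z => Sb_x h m.ε1 m.R1 z
      sb₂ := fun z => Sb_y h m.ε1 m.R1 z
      hb := fun z hz => by
        obtain ⟨l1, l2, l3, l4⟩ := L z hz
        have hm0 := hq.m0 h z
        have hN : 0 ≤ d.N q z := by
          have := hq.nr.M1.trans (h.N_ge (d.u q z))
          have e : d.N q z = deriv d.Φ (d.u q z) := rfl
          rw [e]; linarith
        refine hb_pk h m l1 l2 l3 ?_ ?_
        · rw [d.eB_eq]
          nlinarith
        · rw [d.fB_eq, le_div_iff₀ (by linarith)]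
          have hE : 0 ≤ d.E q z := by linarith
          refine mul_le_mul_of_nonneg_left ?_ hE
          nlinarith }

end Vale.Agent.P088.R2.H867.Z
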