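import Vale.Agent.P088.R2.H867.Z.CbR
import Vale.Agent.P088.R2.H516.P.Omr
import Vale.Agent.P088.R2.H591.X.F0

/-!
# Zone B1: the leaf `zB` for the literal letters `F0`

Helper516's `zrB` with row CB (`rowCB_all`) and row Om (`rowOm`) plugged in.
-/

open Set Filter
open scoped ContDiff Topology

noncomputable section

namespace Vale.Agent.P088.R2.H867.Z

open Vale.Agent.P088.LR Vale.Agent.P088.HY
open Vale.Agent.P088.R2.H31.EP
open Vale.Agent.P088.R2.H558.G (ZRB)
open Vale.Agent.P088.R2.H591.X (F0)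

variable {n : ℕ}

/-- **Row CB in helper516's form.** -/
theorem rowCB516 (hn : 3 ≤ n) : H516.P.RowCB n H696.B1.OB := CbT.rowCB_all hn

/-- **The leaf `zB`.** -/
theorem zrB0 (hn : 3 ≤ n) : ZRB (F0 n) :=
  H516.P.zrB (by omega) rfl rfl (H516.P.rowOm n) (rowCB516 hn)

end Vale.Agent.P088.R2.H867.Z
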